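import Vale.Agent.P174.Base

/-!
# P174: systems of equations over extensions by residually `p` groups
Definitions and module statements.
-/

namespace Vale.Agent.P174

open Monoid

universe u v w x

/-- residually a finite `p`-group -/
def ResP (p : ℕ) (G : Type u) [Group G] : Prop :=
  ∀ g : G, g ≠ 1 → ∃ K : Subgroup G, K.Normal ∧ g ∉ K ∧ ∃ k : ℕ, K.index = p ^ k

/-! ## Internal versions -/

/-- exponent sums modulo `p` -/
noncomputable def ex (p : ℕ) {G : Type u} [Group G] {X : Type v} :
    Coprod G (FreeGroup X) →* Multiplicative (X →₀ ZMod p) :=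
  ev 1 (fun j => Multiplicative.ofAdd (Finsupp.single j 1))

/-- solvability, arbitrary index types: `G` injects into the quotient of the free product -/
def Inj {G : Type u} [Group G] {X : Type v} {ι : Type w} (w : ι → Coprod G (FreeGroup X)) : Prop :=
  ∀ g : G, Coprod.inl g ∈ Subgroup.normalClosure (Set.range w) → g = 1

/-- rows independent modulo `p` -/
def Ind (p : ℕ) {G : Type u} [Group G] {X : Type v} {ι : Type w}
    (w : ι → Coprod G (FreeGroup X)) : Prop :=
  LinearIndependent (ZMod p) (fun i => Multiplicative.toAdd (ex p (w i)))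

/-! ## Modules -/

/-- INF: compactness -/
def S_INF : Prop := ∀ (p : ℕ) [Fact p.Prime] (G : Type u) [Group G], SolvP p G →
  ∀ (ι X : Type u) (w : ι → Coprod G (FreeGroup X)), Ind p w → Inj w

/-- ABEL: abelian groups; the case of a homomorphism to the circle -/
def S_ABEL : Prop := ∀ (p : ℕ) [Fact p.Prime] (G : Type u) [Group G],
  (∀ a b : G, a * b = b * a) → SolvP p G

/-- ELEM: in a commutative group of exponent `p` all independent systems have solutions -/
def S_ELEM : Prop := ∀ (p : ℕ) [Fact p.Prime] (G : Type u) [Group G],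
  (∀ a b : G, a * b = b * a) → (∀ a : G, a ^ p = 1) →
  ∀ (ι X : Type u) (w : ι → Coprod G (FreeGroup X)), Ind p w →
    ∃ h : X → G, ∀ i, ev (MonoidHom.id G) h (w i) = 1

/-- LIN: independence over the group ring of a finite `p`-group.
`T y` translates: `(a, j) ↦ (a * y, j)`. -/
def S_LIN : Prop := ∀ (p : ℕ) [Fact p.Prime] (P : Type u) [Group P] [Finite P], IsPGroup p P →
  ∀ (ι : Type v) [Finite ι] (X : Type w) (D : ι → (P × X →₀ ZMod p)),
  LinearIndependent (ZMod p) (fun i => (D i).mapDomain Prod.snd) →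
  LinearIndependent (ZMod p) (fun iy : ι × P =>
    (D iy.1).mapDomain (fun aj : P × X => (aj.1 * iy.2, aj.2)))

/-- SEP: finitely many elements are separated by one homomorphism to a finite `p`-group -/
def S_SEP : Prop := ∀ (p : ℕ) [Fact p.Prime] (G : Type u) [Group G], ResP p G →
  ∀ S : Finset G, ∃ (P : Type u) (_ : Group P) (_ : Finite P) (f : G →* P), IsPGroup p P ∧
    Set.InjOn f (S : Set G)

/-- BIG: a nonsingular system is `p`-nonsingular for all large primes `p` -/
def S_BIG : Prop := ∀ (m n : ℕ) (A : Fin m → Fin n → ℤ),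
  LinearIndependent ℚ (fun k j => (A k j : ℚ)) →
  ∃ p₀ : ℕ, ∀ p : ℕ, p.Prime → p₀ ≤ p → LinearIndependent (ZMod p) (fun k j => (A k j : ZMod p))

/-- FINP: finite `p`-groups -/
def S_FINP : Prop := ∀ (p : ℕ) [Fact p.Prime] (P : Type u) [Group P] [Finite P], IsPGroup p P →
  ∀ (ι : Type u) [Finite ι] (X : Type u) [Finite X] (w : ι → Coprod P (FreeGroup X)), Ind p w →
  ∃ (L : Type u) (_ : Group L) (_ : Finite L) (i : P →* L) (h : X → L), IsPGroup p L ∧
    Function.Injective i ∧ ∀ k, ev i h (w k) = 1

/-- WR: the wreath product construction -/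
def S_WR : Prop := ∀ (p : ℕ) [Fact p.Prime] (G Q : Type u) [Group G] [Group Q] (π : G →* Q)
  (ι X : Type u) (w : ι → Coprod G (FreeGroup X)) (s : X → Q),
  (∀ i, ev π s (w i) = 1) →
  ∃ (w' : ι × Q → Coprod π.ker (FreeGroup (Q × X))),
    (∀ (H : Type u) [Group H] (f : π.ker →* H) (h : Q × X → H),
      (∀ k, ev f h (w' k) = 1) →
      ∃ (F : G →* RegularWreathProduct H Q) (t : X → RegularWreathProduct H Q),
        (∀ k, ev F t (w k) = 1) ∧ (∀ g, (F g).right = π g) ∧
        ∀ g : π.ker, (∀ a : π.ker, f a = 1 → a = 1) → F g = 1 → g = 1) ∧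
    (ResP p Q → Finite ι → Ind p w → Ind p w')

end Vale.Agent.P174
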