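import Mathlib
import Vale.Agent.P174.Defs

/-!
# P174, module ABEL: abelian groups
-/

namespace Vale.Agent.P174

open Monoid

universe u v w x

namespace AbelAux

/-- rows independent modulo `p` are independent over `ℤ` -/
theorem indep_int (p : ℕ) [hp : Fact p.Prime] {m n : ℕ} (A : Fin m → Fin n → ℤ)
    (h : LinearIndependent (ZMod p) (fun (k : Fin m) (j : Fin n) => (A k j : ZMod p)))
    (c : Fin m → ℤ) (hc : ∀ j, ∑ k, c k * A k j = 0) : ∀ k, c k = 0 := by
  have key : ∀ N : ℕ, ∀ c : Fin m → ℤ, (∀ j, ∑ k, c k * A k j = 0) →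
      ∀ k, (p : ℤ) ^ N ∣ c k := by
    intro N
    induction N with
    | zero => intro c _ k; simp
    | succ N ih =>
      intro c hc k
      have h1 : ∀ k, (p : ℤ) ∣ c k := by
        rw [Fintype.linearIndependent_iff] at h
        have := h (fun k => (c k : ZMod p)) (by
          funext j
          have := congrArg (fun z : ℤ => (z : ZMod p)) (hc j)
          simpa [Finset.sum_apply] using this)
        intro k
        exact (ZMod.intCast_zmod_eq_zero_iff_dvd _ _).mp (this k)
      choose d hd using h1
      have h2 : ∀ j, ∑ k, d k * A k j = 0 := by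
        intro j
        have h3 : (p : ℤ) * ∑ k, d k * A k j = 0 := by
          rw [← hc j, Finset.mul_sum]
          refine Finset.sum_congr rfl fun k _ => ?_
          rw [hd k, mul_assoc]
        rcases mul_eq_zero.mp h3 with h4 | h4
        · exfalso
          exact hp.out.ne_zero (by exact_mod_cast h4)
        · exact h4
      rw [pow_succ', hd k]
      exact mul_dvd_mul_left _ (ih d h2 k)
  intro k
  by_contra hne
  have h1 := key (c k).natAbs c hc k
  have h2 : p ^ (c k).natAbs ∣ (c k).natAbs := by
    have := Int.natAbs_dvd_natAbs.mpr h1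
    simpa [Int.natAbs_pow] using this
  have h3 := Nat.le_of_dvd (Int.natAbs_pos.mpr hne) h2
  have h4 : (c k).natAbs < p ^ (c k).natAbs := Nat.lt_pow_self hp.out.one_lt
  omega

theorem comp_ev {G : Type u} [Group G] {X : Type v} {H : Type w} [Group H] {H' : Type x}
    [Group H'] (i : G →* H) (h : X → H) (f : H →* H') (z : Coprod G (FreeGroup X)) :
    f (ev i h z) = ev (f.comp i) (fun j => f (h j)) z := by
  have : f.comp (ev i h) = ev (f.comp i) (fun j => f (h j)) := by
    unfold ev
    apply Coprod.hom_ext
    · ext g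
      simp
    · ext g
      simp
  exact DFunLike.congr_fun this z

end AbelAux

open AbelAux

theorem abel : S_ABEL.{u} := by
  classical
  intro p hp G _ hcomm m n w hw
  let _ : CommGroup G := { (inferInstance : Group G) with mul_comm := hcomm }
  let B : Type u := G × Multiplicative (Fin n → ℤ)
  let e : Fin n → B := fun j => (1, Multiplicative.ofAdd (Pi.single j 1))
  let wb : Fin m → B := fun k => ev (MonoidHom.inl G (Multiplicative (Fin n → ℤ))) e (w k)
  have hsnd : ∀ k j, Multiplicative.toAdd (wb k).2 j = expo (w k) j := by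
    intro k j
    have h1 := comp_ev (MonoidHom.inl G (Multiplicative (Fin n → ℤ))) e
      (MonoidHom.snd G (Multiplicative (Fin n → ℤ))) (w k)
    have h2 := comp_ev (1 : G →* Multiplicative (Fin n →₀ ℤ))
      (fun j => Multiplicative.ofAdd (Finsupp.single j (1 : ℤ)))
      (AddMonoidHom.toMultiplicative (Finsupp.coeFnAddHom (ι := Fin n) (M := ℤ))) (w k)
    have h3 : (wb k).2 = (AddMonoidHom.toMultiplicative (Finsupp.coeFnAddHom (ι := Fin n) (M := ℤ)))
        (ev (1 : G →* Multiplicative (Fin n →₀ ℤ))
          (fun j => Multiplicative.ofAdd (Finsupp.single j (1 : ℤ))) (w k)) := by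
      rw [h2]
      have h4 : (wb k).2 = MonoidHom.snd G (Multiplicative (Fin n → ℤ)) (wb k) := rfl
      rw [h4]
      show MonoidHom.snd G (Multiplicative (Fin n → ℤ))
        (ev (MonoidHom.inl G (Multiplicative (Fin n → ℤ))) e (w k)) = _
      rw [h1]
      congr 1
      congr 1
      · funext j
        apply Multiplicative.toAdd.injective
        funext l
        simp [e, Finsupp.single_apply, Pi.single_apply, eq_comm]
    rw [h3]
    rfl
  let N : Subgroup B :=
    { carrier := {x | ∃ c : Fin m → ℤ, x = ∏ k, wb k ^ c k}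
      one_mem' := ⟨0, by simp⟩
      mul_mem' := by
        rintro _ _ ⟨c, rfl⟩ ⟨d, rfl⟩
        refine ⟨c + d, ?_⟩
        rw [← Finset.prod_mul_distrib]
        refine Finset.prod_congr rfl fun k _ => ?_
        rw [Pi.add_apply, zpow_add]
      inv_mem' := by
        rintro _ ⟨c, rfl⟩
        refine ⟨-c, ?_⟩
        rw [← Finset.prod_inv_distrib]
        refine Finset.prod_congr rfl fun k _ => ?_
        rw [Pi.neg_apply, zpow_neg] }
  refine ⟨B ⧸ N, inferInstance, (QuotientGroup.mk' N).comp (MonoidHom.inl G _),
    fun j => QuotientGroup.mk' N (e j), ?_, ?_⟩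
  · rw [injective_iff_map_eq_one]
    intro g hg
    have hg' : (g, (1 : Multiplicative (Fin n → ℤ))) ∈ N := by
      rw [← QuotientGroup.eq_one_iff]
      exact hg
    obtain ⟨c, hc⟩ := hg'
    have hc0 : ∀ k, c k = 0 := by
      refine indep_int p (fun k j => expo (w k) j) hw c ?_
      intro j
      let φ : B →* Multiplicative ℤ :=
        (AddMonoidHom.toMultiplicative (Pi.evalAddMonoidHom (fun _ : Fin n => ℤ) j)).comp
          (MonoidHom.snd G (Multiplicative (Fin n → ℤ)))
      have h1 := congrArg φ hc
      rw [map_prod] at h1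
      have h2 : φ (g, (1 : Multiplicative (Fin n → ℤ))) = 1 := rfl
      rw [h2] at h1
      have h3 := congrArg Multiplicative.toAdd h1
      rw [toAdd_prod, toAdd_one] at h3
      rw [h3]
      refine Finset.sum_congr rfl fun k _ => ?_
      rw [map_zpow, toAdd_zpow, smul_eq_mul, ← hsnd]
      rfl
    have : (g, (1 : Multiplicative (Fin n → ℤ))) = (1 : B) := by
      rw [hc]
      refine Finset.prod_eq_one fun k _ => ?_
      rw [hc0 k, zpow_zero]
    exact congrArg Prod.fst this
  · intro k
    rw [← comp_ev (MonoidHom.inl G (Multiplicative (Fin n → ℤ))) e (QuotientGroup.mk' N) (w k)]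
    rw [QuotientGroup.mk'_apply, QuotientGroup.eq_one_iff]
    refine ⟨Pi.single k 1, ?_⟩
    rw [Finset.prod_eq_single k]
    · simp [wb]
    · intro l _ hl
      simp [hl]
    · intro h
      exact absurd (Finset.mem_univ k) h

end Vale.Agent.P174
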