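import Mathlib

/-!
# P174: systems of equations over groups, definitions

`Coprod G (FreeGroup (Fin n))` is the free product of `G` and the free group on `n` letters.
-/

namespace Vale.Agent.P174

open Monoid

universe u v w

/-- evaluation of a word with coefficients in `G` at a homomorphism and a family of elements -/
def ev {G : Type u} [Group G] {X : Type v} {H : Type w} [Group H] (i : G →* H) (h : X → H) :
    Coprod G (FreeGroup X) →* H := Coprod.lift i (FreeGroup.lift h)

/-- exponent sums of a word with coefficients in `G` -/
noncomputable def expo {G : Type u} [Group G] {X : Type v} (z : Coprod G (FreeGroup X)) : X →₀ ℤ :=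
  Multiplicative.toAdd
    (ev (1 : G →* Multiplicative (X →₀ ℤ)) (fun j => Multiplicative.ofAdd (Finsupp.single j 1)) z)

/-- the system `w i = 1` is solvable over `G`: it has a solution in a group containing `G` -/
def Solvable {G : Type u} [Group G] {m n : ℕ} (w : Fin m → Coprod G (FreeGroup (Fin n))) : Prop :=
  ∃ (H : Type u) (_ : Group H) (i : G →* H) (h : Fin n → H),
    Function.Injective i ∧ ∀ k, ev i h (w k) = 1

/-- the exponent-sum matrix has rank `m` over `ℚ` -/
def Nonsing {G : Type u} [Group G] {m n : ℕ} (w : Fin m → Coprod G (FreeGroup (Fin n))) : Prop :=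
  LinearIndependent ℚ (fun (k : Fin m) (j : Fin n) => (expo (w k) j : ℚ))

/-- the exponent-sum matrix has rank `m` over the field with `p` elements -/
def NonsingP (p : ℕ) {G : Type u} [Group G] {m n : ℕ}
    (w : Fin m → Coprod G (FreeGroup (Fin n))) : Prop :=
  LinearIndependent (ZMod p) (fun (k : Fin m) (j : Fin n) => (expo (w k) j : ZMod p))

/-- Howie's conjecture for the group `G`: all nonsingular finite systems over `G` are solvable
over `G` -/
def Q1 (G : Type u) [Group G] : Prop :=
  ∀ (m n : ℕ) (w : Fin m → Coprod G (FreeGroup (Fin n))), Nonsing w → Solvable w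

/-- all `p`-nonsingular finite systems over `G` are solvable over `G` -/
def SolvP (p : ℕ) (G : Type u) [Group G] : Prop :=
  ∀ (m n : ℕ) (w : Fin m → Coprod G (FreeGroup (Fin n))), NonsingP p w → Solvable w

/-- `G` maps onto the infinite cyclic group -/
def OntoZ (G : Type u) [Group G] : Prop :=
  ∃ ψ : G →* Multiplicative ℤ, Function.Surjective ψ

/-- `G` maps onto the cyclic group of order `p` -/
def OntoP (p : ℕ) (G : Type u) [Group G] : Prop :=
  ∃ ψ : G →* Multiplicative (ZMod p), Function.Surjective ψ

/-- locally indicable: every nontrivial finitely generated subgroup maps onto the infinite cyclic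
group -/
def LocInd (G : Type u) [Group G] : Prop :=
  ∀ K : Subgroup G, K.FG → K ≠ ⊥ → OntoZ K

/-- every nontrivial finitely generated subgroup maps onto the cyclic group of order `p` -/
def LocIndP (p : ℕ) (G : Type u) [Group G] : Prop :=
  ∀ K : Subgroup G, K.FG → K ≠ ⊥ → OntoP p K

end Vale.Agent.P174
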