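import Vale.Agent.P174.Defs

/-!
# P174, module ELEM: independent systems over a commutative group of exponent `p`
-/

namespace Vale.Agent.P174

open Monoid

universe u v w x

namespace ELEM

/-- prescribing the values of a linear map on an independent family -/
lemma exists_map {K : Type*} [Field K] {V W : Type*} [AddCommGroup V] [Module K V]
    [AddCommGroup W] [Module K W] {ι : Type*} {v : ι → V} (hv : LinearIndependent K v)
    (c : ι → W) : ∃ Φ : V →ₗ[K] W, ∀ i, Φ (v i) = c i := by
  let f0 : Submodule.span K (Set.range v) →ₗ[K] W :=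
    (Finsupp.linearCombination K c) ∘ₗ (hv.repr : Submodule.span K (Set.range v) →ₗ[K] ι →₀ K)
  obtain ⟨Φ, hΦ⟩ := LinearMap.exists_extend f0
  refine ⟨Φ, fun i => ?_⟩
  have hi : v i ∈ Submodule.span K (Set.range v) := Submodule.subset_span ⟨i, rfl⟩
  have h1 : Φ (v i) = f0 ⟨v i, hi⟩ := by
    rw [← hΦ]; rfl
  rw [h1]
  change Finsupp.linearCombination K c (hv.repr ⟨v i, hi⟩) = c i
  rw [hv.repr_eq_single i ⟨v i, hi⟩ rfl]
  simp

lemma aux (p : ℕ) [Fact p.Prime] (G : Type u) [CommGroup G] [Module (ZMod p) (Additive G)]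
    (ι X : Type u) (w : ι → Coprod G (FreeGroup X)) (hw : Ind p w) :
    ∃ h : X → G, ∀ i, ev (MonoidHom.id G) h (w i) = 1 := by
  obtain ⟨Φ, hΦ⟩ := exists_map hw
    (fun i => Additive.ofMul (ev (MonoidHom.id G) 1 (w i))⁻¹)
  let Ψ : Multiplicative (X →₀ ZMod p) →* G :=
    { toFun := fun z => Additive.toMul (Φ (Multiplicative.toAdd z))
      map_one' := by
        rw [toAdd_one, map_zero, toMul_zero]
      map_mul' := fun a b => by
        rw [toAdd_mul, map_add, toMul_add] }
  let h : X → G := fun j => Additive.toMul (Φ (Finsupp.single j 1))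
  have key : ev (MonoidHom.id G) h = ev (MonoidHom.id G) 1 * Ψ.comp (ex p) := by
    apply Coprod.hom_ext
    · ext g
      simp [ev, ex, Ψ]
    · apply FreeGroup.ext_hom
      intro j
      simp [ev, ex, Ψ, h]
  refine ⟨h, fun i => ?_⟩
  rw [key, MonoidHom.mul_apply, MonoidHom.comp_apply]
  have h1 : Ψ (ex p (w i)) = (ev (MonoidHom.id G) 1 (w i))⁻¹ := by
    change Additive.toMul (Φ (Multiplicative.toAdd (ex p (w i)))) = _
    rw [hΦ i]
    rfl
  rw [h1, mul_inv_cancel]

lemma aux2 (p : ℕ) [Fact p.Prime] (G : Type u) [CommGroup G] (hp : ∀ a : G, a ^ p = 1)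
    (ι X : Type u) (w : ι → Coprod G (FreeGroup X)) (hw : Ind p w) :
    ∃ h : X → G, ∀ i, ev (MonoidHom.id G) h (w i) = 1 := by
  let _ : Module (ZMod p) (Additive G) :=
    AddCommGroup.zmodModule (n := p) (fun x => congrArg Additive.ofMul (hp (Additive.toMul x)))
  exact aux p G ι X w hw

end ELEM

theorem elem : S_ELEM.{u} := by
  intro p _ G _ hc hp ι X w hw
  exact @ELEM.aux2 p _ G { (inferInstance : Group G) with mul_comm := hc } hp ι X w hw

end Vale.Agent.P174
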