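import Vale.Agent.P174.Defs
import Vale.Agent.P174.Elem

/-!
# P174, module BIG: nonsingular systems are `p`-nonsingular for large `p`
-/

namespace Vale.Agent.P174

theorem big : S_BIG := by
  intro m n A hA
  obtain ⟨g, hg⟩ := ELEM.exists_map hA (fun k => (Pi.single k (1 : ℚ) : Fin m → ℚ))
  -- the right inverse
  let B : Fin n → Fin m → ℚ := fun j => g (Pi.single j 1)
  have hB : ∀ k l, ∑ j, (A k j : ℚ) * B j l = if k = l then 1 else 0 := by
    intro k l
    have h1 : (fun j => (A k j : ℚ)) = ∑ j, (A k j : ℚ) • (Pi.single j (1 : ℚ) : Fin n → ℚ) := by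
      funext i
      simp [Finset.sum_apply, Pi.single_apply]
    have h2 := hg k
    rw [h1, map_sum] at h2
    have h3 := congrFun h2 l
    simp only [map_smul, Finset.sum_apply, Pi.smul_apply, smul_eq_mul] at h3
    rw [Pi.single_apply] at h3
    simp only [B]
    rw [h3]
    by_cases hkl : k = l
    · simp [hkl]
    · rw [if_neg hkl, if_neg (fun h => hkl h.symm)]
  let d : ℕ := ∏ j, ∏ l, (B j l).den
  have hd : d ≠ 0 := by
    refine Finset.prod_ne_zero_iff.2 fun j _ => Finset.prod_ne_zero_iff.2 fun l _ => ?_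
    exact (B j l).den_nz
  have hint : ∀ j l, ∃ z : ℤ, (z : ℚ) = B j l * d := by
    intro j l
    have h1 : (B j l).den ∣ d :=
      (Finset.dvd_prod_of_mem (fun l => (B j l).den) (Finset.mem_univ l)).trans
        (Finset.dvd_prod_of_mem (fun j => ∏ l, (B j l).den) (Finset.mem_univ j))
    obtain ⟨e, he⟩ := h1
    refine ⟨(B j l).num * e, ?_⟩
    rw [he]
    push_cast
    rw [← mul_assoc, Rat.mul_den_eq_num]
  choose C hC using hint
  have hAC : ∀ k l, ∑ j, A k j * C j l = if k = l then (d : ℤ) else 0 := by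
    intro k l
    have h1 : ((∑ j, A k j * C j l : ℤ) : ℚ) = ((if k = l then (d : ℤ) else 0 : ℤ) : ℚ) := by
      push_cast
      simp only [hC]
      have h2 : ∀ j, (A k j : ℚ) * (B j l * d) = (A k j : ℚ) * B j l * d := fun j => by ring
      simp only [h2]
      rw [← Finset.sum_mul, hB]
      split_ifs <;> simp
    exact_mod_cast h1
  refine ⟨d + 1, fun p hp hpd => ?_⟩
  have : Fact p.Prime := ⟨hp⟩
  rw [Fintype.linearIndependent_iff]
  intro c hc l
  have h0 : ∀ j, ∑ k, c k * (A k j : ZMod p) = 0 := by
    intro j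
    have := congrFun hc j
    simpa [Finset.sum_apply] using this
  have h1 : ∑ k, c k * (if k = l then (d : ZMod p) else 0) = 0 := by
    have h2 : ∀ k, (if k = l then (d : ZMod p) else 0) = ∑ j, (A k j : ZMod p) * (C j l : ZMod p) := by
      intro k
      have := congrArg (fun z : ℤ => (z : ZMod p)) (hAC k l)
      simp only [Int.cast_sum, Int.cast_mul] at this
      rw [this]
      split_ifs <;> simp
    simp only [h2, Finset.mul_sum]
    rw [Finset.sum_comm]
    refine Finset.sum_eq_zero fun j _ => ?_
    have h3 : ∀ k, c k * ((A k j : ZMod p) * (C j l : ZMod p))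
        = (c k * (A k j : ZMod p)) * (C j l : ZMod p) := fun k => by ring
    simp only [h3]
    rw [← Finset.sum_mul, h0, zero_mul]
  have h2 : c l * (d : ZMod p) = 0 := by
    rw [Finset.sum_eq_single l] at h1
    · simpa using h1
    · intro k _ hk
      rw [if_neg hk, mul_zero]
    · intro h
      exact absurd (Finset.mem_univ l) h
  have h3 : (d : ZMod p) ≠ 0 := by
    intro h
    rw [ZMod.natCast_eq_zero_iff] at h
    have := Nat.le_of_dvd (Nat.pos_of_ne_zero hd) h
    omega
  exact (mul_eq_zero.1 h2).resolve_right h3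

end Vale.Agent.P174
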