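import Vale.Agent.P174.Ext

/-!
# P174: closure properties
-/

namespace Vale.Agent.P174

open Monoid

universe u v w

/-- every finitely generated subgroup is residually a finite `p`-group -/
def LocResP (p : ℕ) (G : Type u) [Group G] : Prop :=
  ∀ K : Subgroup G, K.FG → ResP p K

/-- LOC: `SolvP` is a local property -/
def S_LOC : Prop := ∀ (p : ℕ) (G : Type u) [Group G],
  (∀ S : Finset G, ∃ K : Subgroup G, (S : Set G) ⊆ K ∧ SolvP p K) → SolvP p G

namespace CLOS

lemma resP_of_injective {p : ℕ} (hp : p.Prime) {A B : Type u} [Group A] [Group B] (f : A →* B)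
    (hf : Function.Injective f) (hB : ResP p B) : ResP p A := by
  intro a ha
  obtain ⟨K, hK, haK, k, hk⟩ := hB (f a) (by rwa [Ne, map_eq_one_iff f hf])
  refine ⟨K.comap f, inferInstance, haK, ?_⟩
  have h1 : (K.comap f).index ∣ p ^ k := by
    rw [Subgroup.index_comap, ← hk]
    exact Subgroup.relIndex_dvd_index_of_normal K f.range
  obtain ⟨j, -, hj⟩ := (Nat.dvd_prime_pow hp).mp h1
  exact ⟨j, hj⟩

lemma nonsingP_chg {p : ℕ} {G G' : Type u} [Group G] [Group G'] {m n : ℕ} (i : G →* G')
    (w : Fin m → Coprod G (FreeGroup (Fin n))) (hw : NonsingP p w) :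
    NonsingP p (fun k => FINP.chg (Fin n) i (w k)) := by
  have h : (fun (k : Fin m) (j : Fin n) => (expo (FINP.chg (Fin n) i (w k)) j : ZMod p)) =
      fun (k : Fin m) (j : Fin n) => (expo (w k) j : ZMod p) := by
    funext k j
    rw [← EXT.ex_eq_expo, ← EXT.ex_eq_expo, FINP.ex_chg]
  unfold NonsingP
  rw [h]
  exact hw

lemma solvP_of_injective {p : ℕ} {A B : Type u} [Group A] [Group B] (f : A →* B)
    (hf : Function.Injective f) (hB : SolvP p B) : SolvP p A := by
  intro m n w hw
  obtain ⟨H, _, i, h, hi, hh⟩ := hB m n _ (nonsingP_chg f w hw)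
  refine ⟨H, inferInstance, i.comp f, h, hi.comp hf, fun k => ?_⟩
  have := hh k
  rwa [FINP.ev_chg] at this

lemma solvP_of_residual {p : ℕ} {G : Type u} [Group G]
    (h : ∀ g : G, g ≠ 1 → ∃ (H : Type u) (_ : Group H) (f : G →* H), SolvP p H ∧ f g ≠ 1) :
    SolvP p G := by
  intro m n w hw
  have h' : ∀ g : {g : G // g ≠ 1}, ∃ (H : Type u) (_ : Group H) (f : G →* H),
      SolvP p H ∧ f g.1 ≠ 1 := fun g => h g.1 g.2
  choose H hHg f hf hfg using h'
  have hex := fun g : {g : G // g ≠ 1} => hf g m n _ (nonsingP_chg (f g) w hw)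
  choose H' hH' i t hi ht using hex
  refine ⟨∀ g, H' g, inferInstance, MonoidHom.pi (fun g => (i g).comp (f g)), fun j g => t g j,
    ?_, ?_⟩
  · rw [injective_iff_map_eq_one]
    intro y hy
    by_contra hne
    let x0 : {g : G // g ≠ 1} := ⟨y, hne⟩
    have h1 := congrFun hy x0
    change i x0 (f x0 y) = 1 at h1
    rw [map_eq_one_iff _ (hi x0)] at h1
    exact hfg x0 h1
  · intro k
    funext g
    have h1 := ht g k
    rw [FINP.ev_chg] at h1
    have h2 := FINP.ev_comp (MonoidHom.pi (fun g => (i g).comp (f g)))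
      (fun j g => t g j) (Pi.evalMonoidHom H' g) (w k)
    exact h2.trans h1

/-- the extension theorem with a locally residually `p` quotient -/
lemma extLoc (hwr : S_WR.{u}) (hfinp : S_FINP.{u}) (hinf : S_INF.{u}) (hloc : S_LOC.{u})
    (p : ℕ) [hp : Fact p.Prime] (G : Type u) [Group G] (N : Subgroup G) [N.Normal]
    (hN : SolvP p N) (hQ : LocResP p (G ⧸ N)) : SolvP p G := by
  refine hloc p G fun S => ⟨Subgroup.closure (S : Set G), Subgroup.subset_closure, ?_⟩
  set K := Subgroup.closure (S : Set G) with hK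
  refine ext hwr hfinp hinf p K (N.subgroupOf K) ?_ ?_
  · let f : N.subgroupOf K →* N :=
      { toFun := fun a => ⟨((a : K) : G), a.2⟩
        map_one' := rfl
        map_mul' := fun a b => rfl }
    refine solvP_of_injective f ?_ hN
    intro a b hab
    have h1 : ((f a : N) : G) = ((f b : N) : G) := by rw [hab]
    exact Subtype.ext (Subtype.ext h1)
  · have hmap : (K.map (QuotientGroup.mk' N)).FG :=
      (Subgroup.fg_iff _).mpr ⟨(QuotientGroup.mk' N) '' (S : Set G), by
        rw [hK, MonoidHom.map_closure], S.finite_toSet.image _⟩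
    have hR := hQ _ hmap
    let g : K →* (K.map (QuotientGroup.mk' N)) := (QuotientGroup.mk' N).subgroupMap K
    have hg : N.subgroupOf K = g.ker := by
      ext a
      rw [Subgroup.mem_subgroupOf, MonoidHom.mem_ker]
      constructor
      · intro h
        apply Subtype.ext
        exact (QuotientGroup.eq_one_iff _).mpr h
      · intro h
        exact (QuotientGroup.eq_one_iff _).mp (congrArg Subtype.val h)
    have key : ∀ (M : Subgroup K) [M.Normal], M = g.ker → ResP p (K ⧸ M) := by
      intro M _ hM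
      subst hM
      exact resP_of_injective hp.out (QuotientGroup.kerLift g) (QuotientGroup.kerLift_injective g)
        hR
    exact key _ hg

end CLOS

end Vale.Agent.P174
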