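import Vale.Agent.P174.Finp

/-!
# P174: extensions by residually `p` groups
-/

namespace Vale.Agent.P174

open Monoid

universe u v w

namespace EXT

/-- renaming unknowns -/
def ren {G : Type u} [Group G] {X : Type v} {Y : Type w} (f : X → Y) :
    Coprod G (FreeGroup X) →* Coprod G (FreeGroup Y) :=
  ev Coprod.inl (fun j => Coprod.inr (FreeGroup.of (f j)))

lemma ev_ren {G : Type u} [Group G] {X : Type v} {Y : Type w} {H : Type*} [Group H] (f : X → Y)
    (i : G →* H) (h : Y → H) (z : Coprod G (FreeGroup X)) :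
    ev i h (ren f z) = ev i (fun j => h (f j)) z := by
  rw [ren, FINP.ev_comp]
  have : (ev i h).comp Coprod.inl = i := by
    ext a
    simp
  rw [this]
  congr 2
  funext j
  simp

lemma ex_eq_expo (p : ℕ) {G : Type u} [Group G] {X : Type v} (z : Coprod G (FreeGroup X)) (j : X) :
    Multiplicative.toAdd (ex p z) j = (expo z j : ZMod p) := by
  let c : Multiplicative (X →₀ ℤ) →* Multiplicative (X →₀ ZMod p) :=
    AddMonoidHom.toMultiplicative (Finsupp.mapRange.addMonoidHom (Int.castAddHom (ZMod p)))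
  have h : ex p = c.comp (ev (1 : G →* Multiplicative (X →₀ ℤ))
      (fun j => Multiplicative.ofAdd (Finsupp.single j 1))) := by
    refine WR.ev_ext (fun a => ?_) (fun j => ?_)
    · simp [ex]
    · simp [ex, c]
  rw [h]
  rfl

lemma ex_ren (p : ℕ) {G : Type u} [Group G] {X : Type v} {Y : Type w} (f : X → Y)
    (z : Coprod G (FreeGroup X)) :
    Multiplicative.toAdd (ex p (ren f z)) = (Multiplicative.toAdd (ex p z)).mapDomain f := by
  let c : Multiplicative (X →₀ ZMod p) →* Multiplicative (Y →₀ ZMod p) :=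
    AddMonoidHom.toMultiplicative (Finsupp.mapDomain.addMonoidHom f)
  have h : (ex p).comp (ren f) = c.comp (ex p : Coprod G (FreeGroup X) →* _) := by
    refine WR.ev_ext (fun a => ?_) (fun j => ?_)
    · simp [ex, ren]
    · simp [ex, c, ren]
  exact congrArg Multiplicative.toAdd (DFunLike.congr_fun h z)

/-- the lifted system -/
def up {G : Type u} [Group G] {m n : ℕ} (w : Fin m → Coprod G (FreeGroup (Fin n))) :
    ULift.{u} (Fin m) → Coprod G (FreeGroup (ULift.{u} (Fin n))) :=
  fun k => ren ULift.up (w k.down)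

lemma ind_up (p : ℕ) [Fact p.Prime] {G : Type u} [Group G] {m n : ℕ}
    (w : Fin m → Coprod G (FreeGroup (Fin n))) (hw : NonsingP p w) : Ind p (up w) := by
  rw [Ind, Fintype.linearIndependent_iff]
  intro g hg k
  have h1 := Fintype.linearIndependent_iff.mp hw (fun k => g ⟨k⟩) (by
    funext j
    have h2 := DFunLike.congr_fun hg (ULift.up j)
    rw [Finsupp.finsetSum_apply, Finsupp.zero_apply] at h2
    rw [Finset.sum_apply, Pi.zero_apply, ← h2]
    refine Fintype.sum_equiv Equiv.ulift.symm _ _ fun k => ?_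
    rw [Pi.smul_apply, Finsupp.smul_apply]
    congr 1
    change _ = Multiplicative.toAdd (ex p (ren ULift.up (w k))) (ULift.up j)
    rw [ex_ren, Finsupp.mapDomain_apply ULift.up_injective, ex_eq_expo])
  exact h1 k.down

/-- solution in a residually `p` group -/
lemma exists_resP (hfinp : S_FINP.{u}) (p : ℕ) [hp : Fact p.Prime] {Q : Type u} [Group Q]
    (hQ : ResP p Q) (ι : Type u) [Finite ι] (X : Type u) [Finite X]
    (w : ι → Coprod Q (FreeGroup X)) (hw : Ind p w) :
    ∃ (Q' : Type u) (_ : Group Q') (i : Q →* Q') (h : X → Q'), ResP p Q' ∧ Function.Injective i ∧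
      ∀ k, ev i h (w k) = 1 := by
  classical
  choose! K hKn hK k hk using hQ
  let I : Type u := {x : Q // x ≠ 1}
  have hKn' : ∀ x : I, (K x.1).Normal := fun x => hKn x.1 x.2
  have hfin : ∀ x : I, Finite (Q ⧸ K x.1) := by
    intro x
    have h1 : (K x.1).index ≠ 0 := by
      rw [hk x.1 x.2]
      exact pow_ne_zero _ hp.out.ne_zero
    have h2 : (K x.1).FiniteIndex := ⟨h1⟩
    infer_instance
  have hP : ∀ x : I, IsPGroup p (Q ⧸ K x.1) := fun x => IsPGroup.of_card (n := k x.1) (hk x.1 x.2)
  have hex := fun x : I => hfinp p (Q ⧸ K x.1) (hP x) ι X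
    (fun k => FINP.chg X (QuotientGroup.mk' (K x.1)) (w k)) (by
      rw [Ind]
      simp only [FINP.ex_chg]
      exact hw)
  choose L hLg hLf i h hLp hi hh using hex
  refine ⟨∀ x, L x, inferInstance, MonoidHom.pi (fun x => (i x).comp (QuotientGroup.mk' (K x.1))),
    fun j x => h x j, ?_, ?_, ?_⟩
  · intro y hy
    obtain ⟨x, hx⟩ := Function.ne_iff.mp hy
    refine ⟨(Pi.evalMonoidHom L x).ker, inferInstance, ?_, ?_⟩
    · rw [MonoidHom.mem_ker]
      exact hx
    · obtain ⟨a, ha⟩ := IsPGroup.iff_card.mp (hLp x)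
      refine ⟨a, ?_⟩
      rw [Subgroup.index_ker, ← ha]
      have hs : Function.Surjective (Pi.evalMonoidHom L x) := Function.surjective_eval x
      rw [MonoidHom.range_eq_top.mpr hs]
      exact Subgroup.card_top
  · rw [injective_iff_map_eq_one]
    intro y hy
    by_contra hne
    let x0 : I := ⟨y, hne⟩
    have h1 := congrFun hy x0
    change i x0 (QuotientGroup.mk' (K x0.1) y) = 1 at h1
    rw [map_eq_one_iff _ (hi x0)] at h1
    have hn := hKn y hne
    exact hK y hne ((QuotientGroup.eq_one_iff y).mp h1)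
  · intro k
    funext x
    have h1 := hh x k
    rw [FINP.ev_chg] at h1
    have h2 := FINP.ev_comp (MonoidHom.pi (fun x => (i x).comp (QuotientGroup.mk' (K x.1))))
      (fun j x => h x j) (Pi.evalMonoidHom L x) (w k)
    exact h2.trans h1

end EXT

open EXT in
theorem ext (hwr : S_WR.{u}) (hfinp : S_FINP.{u}) (hinf : S_INF.{u}) (p : ℕ) [Fact p.Prime]
    (G : Type u) [Group G] (N : Subgroup G) [N.Normal] (hN : SolvP p N) (hQ : ResP p (G ⧸ N)) :
    SolvP p G := by
  intro m n w hw
  have hW := ind_up p w hw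
  obtain ⟨Q', _, i, s, hQ', hi, hs⟩ := exists_resP hfinp p hQ (ULift.{u} (Fin m))
    (ULift.{u} (Fin n)) (fun k => FINP.chg _ (QuotientGroup.mk' N) (up w k)) (by
      rw [Ind]
      simp only [FINP.ex_chg]
      exact hW)
  let π : G →* Q' := i.comp (QuotientGroup.mk' N)
  have hker : π.ker = N := by
    ext a
    rw [MonoidHom.mem_ker]
    change i (QuotientGroup.mk' N a) = 1 ↔ a ∈ N
    rw [map_eq_one_iff i hi]
    exact QuotientGroup.eq_one_iff a
  have hs' : ∀ k, ev π s (up w k) = 1 := by
    intro k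
    have := hs k
    rw [FINP.ev_chg] at this
    exact this
  obtain ⟨w', h1, h2⟩ := hwr p G Q' π _ _ (up w) s hs'
  have hw' := h2 hQ' inferInstance hW
  have hSN : SolvP p π.ker := by rw [hker]; exact hN
  have hinj := hinf p π.ker hSN _ _ w' hw'
  let R := Subgroup.normalClosure (Set.range w')
  let f : π.ker →* (Coprod π.ker (FreeGroup (Q' × ULift.{u} (Fin n))) ⧸ R) :=
    (QuotientGroup.mk' R).comp Coprod.inl
  let h : Q' × ULift.{u} (Fin n) → (Coprod π.ker (FreeGroup (Q' × ULift.{u} (Fin n))) ⧸ R) :=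
    fun j => QuotientGroup.mk' R (Coprod.inr (FreeGroup.of j))
  have hev : ev f h = QuotientGroup.mk' R := by
    refine WR.ev_ext (fun a => ?_) (fun j => ?_) <;> simp [f, h]
  obtain ⟨F, t, hF1, hF2, hF3⟩ := h1 _ f h (by
    intro k
    rw [hev]
    exact (QuotientGroup.eq_one_iff _).mpr (Subgroup.subset_normalClosure ⟨k, rfl⟩))
  refine ⟨_, inferInstance, F, fun j => t (ULift.up j), ?_, ?_⟩
  · rw [injective_iff_map_eq_one]
    intro g hg
    have hg1 : π g = 1 := by
      rw [← hF2 g, hg]
      rfl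
    have := hF3 ⟨g, hg1⟩ (fun a ha => ?_) hg
    · exact congrArg Subtype.val this
    · refine hinj a ?_
      exact (QuotientGroup.eq_one_iff _).mp ha
  · intro k
    have := hF1 (ULift.up k)
    rw [up, ev_ren] at this
    exact this

end Vale.Agent.P174
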