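import Vale.Agent.P174.WR

/-!
# P174: finite `p`-groups
-/

namespace Vale.Agent.P174

open Monoid

universe u v w

namespace FINP

lemma ev_comp {G : Type u} [Group G] {X : Type v} {H K : Type*} [Group H] [Group K]
    (i : G →* H) (h : X → H) (f : H →* K) (z : Coprod G (FreeGroup X)) :
    f (ev i h z) = ev (f.comp i) (fun j => f (h j)) z := by
  have : f.comp (ev i h) = ev (f.comp i) (fun j => f (h j)) := by
    refine WR.ev_ext (fun a => ?_) (fun j => ?_) <;> simp
  exact DFunLike.congr_fun this z

/-- change of coefficients -/
def chg {G G' : Type u} [Group G] [Group G'] (X : Type v) (i : G →* G') :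
    Coprod G (FreeGroup X) →* Coprod G' (FreeGroup X) :=
  ev (Coprod.inl.comp i) (fun j => Coprod.inr (FreeGroup.of j))

lemma ev_chg {G G' : Type u} [Group G] [Group G'] {X : Type v} {H : Type w} [Group H] (i : G →* G')
    (f : G' →* H) (h : X → H) (z : Coprod G (FreeGroup X)) :
    ev f h (chg X i z) = ev (f.comp i) h z := by
  rw [chg, ev_comp]
  have : (ev f h).comp (Coprod.inl.comp i) = f.comp i := by
    ext a
    simp
  rw [this]
  congr 2
  funext j
  simp

lemma ex_chg (p : ℕ) {G G' : Type u} [Group G] [Group G'] {X : Type v} (i : G →* G')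
    (z : Coprod G (FreeGroup X)) : ex p (chg X i z) = ex p z := by
  rw [ex, ev_chg]
  rfl

lemma resP_of_isPGroup {p : ℕ} [hp : Fact p.Prime] {P : Type u} [Group P] [Finite P]
    (hP : IsPGroup p P) : ResP p P := by
  intro g hg
  refine ⟨⊥, inferInstance, by rwa [Subgroup.mem_bot], ?_⟩
  rw [Subgroup.index_bot]
  exact IsPGroup.iff_card.mp hP

lemma wreath_isPGroup {p : ℕ} [hp : Fact p.Prime] {D Q : Type u} [Group D] [Group Q] [Finite D]
    [Finite Q] (hD : IsPGroup p D) (hQ : IsPGroup p Q) :
    IsPGroup p (RegularWreathProduct D Q) := by
  obtain ⟨a, ha⟩ := IsPGroup.iff_card.mp hD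
  obtain ⟨b, hb⟩ := IsPGroup.iff_card.mp hQ
  refine IsPGroup.of_card (n := a * Nat.card Q + b) ?_
  rw [RegularWreathProduct.card, ha, ← pow_mul, pow_add, ← hb]

end FINP

open FINP in
theorem finp (hwr : S_WR.{u}) (helem : S_ELEM.{u}) : S_FINP.{u} := by
  intro p hp
  have key : ∀ n : ℕ, ∀ (P : Type u) [Group P] [Finite P], IsPGroup p P → Nat.card P = n →
      ∀ (ι : Type u) [Finite ι] (X : Type u) [Finite X] (w : ι → Coprod P (FreeGroup X)),
      Ind p w → ∃ (L : Type u) (_ : Group L) (_ : Finite L) (i : P →* L) (h : X → L),
        IsPGroup p L ∧ Function.Injective i ∧ ∀ k, ev i h (w k) = 1 := by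
    intro n
    induction n using Nat.strong_induction_on with
    | _ n ih =>
      intro P _ _ hP hn ι _ X _ w hw
      by_cases htriv : Subsingleton P
      · refine ⟨P, inferInstance, inferInstance, MonoidHom.id P, fun _ => 1, hP,
          Function.injective_id, fun k => ?_⟩
        exact Subsingleton.elim _ _
      · have hnt : Nontrivial P := not_subsingleton_iff_nontrivial.mp htriv
        have hcen : Nontrivial (Subgroup.center P) := hP.center_nontrivial
        have hcp : IsPGroup p (Subgroup.center P) := hP.to_subgroup _
        have hdvd : p ∣ Nat.card (Subgroup.center P) := by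
          obtain ⟨k, hk⟩ := IsPGroup.iff_card.mp hcp
          rw [hk]
          refine dvd_pow_self p ?_
          rintro rfl
          rw [pow_zero] at hk
          have := Finite.one_lt_card_iff_nontrivial.mpr hcen
          omega
        obtain ⟨z, hz⟩ := exists_prime_orderOf_dvd_card' (G := Subgroup.center P) p hdvd
        let N : Subgroup P := Subgroup.zpowers (z : P)
        have hNc : N ≤ Subgroup.center P := by
          rw [Subgroup.zpowers_le]
          exact z.2
        have hN : N.Normal := by
          refine ⟨fun a ha g => ?_⟩
          have := Subgroup.mem_center_iff.mp (hNc ha) g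
          rw [this]
          simpa using ha
        have hzo : orderOf (z : P) = p := by
          rw [Subgroup.orderOf_coe]
          exact hz
        have hNcard : Nat.card N = p := by
          rw [Nat.card_zpowers, hzo]
        have hNcomm : ∀ a b : N, a * b = b * a := by
          intro a b
          apply Subtype.ext
          exact (Subgroup.mem_center_iff.mp (hNc a.2) b).symm
        have hNexp : ∀ a : N, a ^ p = 1 := by
          intro a
          have := pow_card_eq_one' (x := a)
          rwa [hNcard] at this
        have hlt : Nat.card (P ⧸ N) < n := by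
          have h1 := Subgroup.card_eq_card_quotient_mul_card_subgroup N
          rw [hn, hNcard] at h1
          have h2 : 0 < Nat.card (P ⧸ N) := Nat.card_pos
          have h3 := hp.out.two_le
          rw [h1]
          nlinarith
        obtain ⟨L, _, _, i, s, hL, hi, hs⟩ := ih _ hlt (P ⧸ N) (hP.to_quotient N) rfl ι X
          (fun k => chg X (QuotientGroup.mk' N) (w k)) (by
            rw [Ind]
            simp only [ex_chg]
            exact hw)
        let π : P →* L := i.comp (QuotientGroup.mk' N)
        have hker : π.ker = N := by
          ext a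
          rw [MonoidHom.mem_ker]
          change i (QuotientGroup.mk' N a) = 1 ↔ a ∈ N
          rw [map_eq_one_iff i hi]
          exact QuotientGroup.eq_one_iff a
        have hs' : ∀ k, ev π s (w k) = 1 := by
          intro k
          have := hs k
          rw [ev_chg] at this
          exact this
        obtain ⟨w', h1, h2⟩ := hwr p P L π ι X w s hs'
        have hw' := h2 (resP_of_isPGroup hL) inferInstance hw
        obtain ⟨h, hh⟩ := helem p π.ker (by rw [hker]; exact hNcomm) (by rw [hker]; exact hNexp)
          (ι × L) (L × X) w' hw'
        obtain ⟨F, t, hF1, hF2, hF3⟩ := h1 π.ker (MonoidHom.id _) h hh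
        refine ⟨RegularWreathProduct π.ker L, inferInstance, inferInstance, F, t,
          wreath_isPGroup (hP.to_subgroup _) hL, ?_, hF1⟩
        rw [injective_iff_map_eq_one]
        intro g hg
        have hg1 : π g = 1 := by
          rw [← hF2 g, hg]
          rfl
        have := hF3 ⟨g, hg1⟩ (fun a ha => ha) hg
        exact congrArg Subtype.val this
  intro P _ _ hP ι _ X _ w hw
  exact key _ P hP rfl ι X w hw

end Vale.Agent.P174
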