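import Vale.Agent.P174.TDefs

/-!
# P174, GAUGE: change of gauge
-/

namespace Vale.Agent.P174

open Monoid

universe u v w

namespace GaugeX

variable {Q : Type u} [Group Q] {V : Type} {Λ : Type u}

/-- paths along the edges in `EC` with their labels -/
inductive Rc (τ : Λ → V ≃ V) (l : Λ → Q) (EC : Set (V × Λ)) : V → Q → V → Prop
  | refl (v : V) : Rc τ l EC v 1 v
  | fwd (v v' : V) (g : Q) (a : Λ) : Rc τ l EC v g v' → (v', a) ∈ EC →
      Rc τ l EC v (g * l a) (τ a v')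
  | bwd (v v' : V) (g : Q) (a : Λ) : Rc τ l EC v g (τ a v') → (v', a) ∈ EC →
      Rc τ l EC v (g * (l a)⁻¹) v'

theorem Rc.trans {τ : Λ → V ≃ V} {l : Λ → Q} {EC : Set (V × Λ)} {v v' v'' : V} {g h : Q}
    (h1 : Rc τ l EC v g v') (h2 : Rc τ l EC v' h v'') : Rc τ l EC v (g * h) v'' := by
  induction h2 with
  | refl => rw [mul_one]; exact h1
  | fwd x h a _ ha ih =>
    rw [← mul_assoc]
    exact Rc.fwd _ _ _ _ ih ha
  | bwd x h a _ ha ih =>
    rw [← mul_assoc]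
    exact Rc.bwd _ _ _ _ ih ha

theorem Rc.symm {τ : Λ → V ≃ V} {l : Λ → Q} {EC : Set (V × Λ)} {v v' : V} {g : Q}
    (h1 : Rc τ l EC v g v') : Rc τ l EC v' g⁻¹ v := by
  induction h1 with
  | refl => rw [inv_one]; exact Rc.refl _
  | fwd x g a _ ha ih =>
    rw [mul_inv_rev]
    refine Rc.trans ?_ ih
    have := Rc.bwd (τ := τ) (l := l) (EC := EC) (τ a x) x 1 a (Rc.refl _) ha
    rwa [one_mul] at this
  | bwd x g a _ ha ih =>
    rw [mul_inv_rev, inv_inv]
    refine Rc.trans ?_ ih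
    have := Rc.fwd (τ := τ) (l := l) (EC := EC) x x 1 a (Rc.refl _) ha
    rwa [one_mul] at this

/-- components -/
def comp (τ : Λ → V ≃ V) (l : Λ → Q) (EC : Set (V × Λ)) : Setoid V where
  r v v' := ∃ g, Rc τ l EC v g v'
  iseqv := ⟨fun v => ⟨1, Rc.refl v⟩, fun ⟨g, h⟩ => ⟨g⁻¹, h.symm⟩,
    fun ⟨g, h⟩ ⟨g', h'⟩ => ⟨g * g', h.trans h'⟩⟩

/-- base point of the component -/
noncomputable def base (τ : Λ → V ≃ V) (l : Λ → Q) (EC : Set (V × Λ)) (v : V) : V :=
  (Quotient.mk (comp τ l EC) v).out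

theorem base_rel (τ : Λ → V ≃ V) (l : Λ → Q) (EC : Set (V × Λ)) (v : V) :
    ∃ g, Rc τ l EC (base τ l EC v) g v := Quotient.mk_out (s := comp τ l EC) v

theorem base_eq (τ : Λ → V ≃ V) (l : Λ → Q) (EC : Set (V × Λ)) (v v' : V) (g : Q)
    (h : Rc τ l EC v g v') : base τ l EC v = base τ l EC v' := by
  have h1 : Quotient.mk (comp τ l EC) v = Quotient.mk (comp τ l EC) v' :=
    Quotient.sound (s := comp τ l EC) ⟨g, h⟩
  rw [base, base, h1]

end GaugeX

open GaugeX in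
theorem gauge : S_GAUGE.{u} := by
  intro p _ Q _ hQ V Λ τ l EC hfin H
  choose γ hγ using base_rel τ l EC
  let hh : V × Λ → Q := fun e => γ e.1 * l e.2 * (γ (τ e.2 e.1))⁻¹
  set A : Subgroup Q := Subgroup.closure (hh '' EC) with hA
  have hmem : ∀ e ∈ EC, hh e ∈ A := fun e he => Subgroup.subset_closure ⟨e, he, rfl⟩
  have hFG : A.FG := (Subgroup.fg_iff A).mpr ⟨hh '' EC, hA.symm, hfin.image _⟩
  have hbot : A = ⊥ := by
    by_contra hne
    obtain ⟨ψ, hψ⟩ := hQ A hFG hne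
    obtain ⟨f, hf⟩ := H γ A ψ hmem
    -- the cocycle along paths
    have key : ∀ v g v', Rc τ l EC v g v' → ∃ h : γ v * g * (γ v')⁻¹ ∈ A,
        Multiplicative.toAdd (ψ ⟨_, h⟩) = f v' - f v := by
      intro v g v' hR
      induction hR with
      | refl =>
        have h1 : γ v * 1 * (γ v)⁻¹ = 1 := by group
        have h2 : γ v * 1 * (γ v)⁻¹ ∈ A := by rw [h1]; exact one_mem _
        refine ⟨h2, ?_⟩
        have h3 : (⟨_, h2⟩ : A) = 1 := Subtype.ext h1
        rw [h3, map_one, sub_self]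
        rfl
      | fwd x g a _ ha ih =>
        obtain ⟨h1, h2⟩ := ih
        have h3 : γ v * (g * l a) * (γ (τ a x))⁻¹ =
            (γ v * g * (γ x)⁻¹) * (γ x * l a * (γ (τ a x))⁻¹) := by group
        have h4 := hmem (x, a) ha
        have h5 : γ v * (g * l a) * (γ (τ a x))⁻¹ ∈ A := by
          rw [h3]; exact mul_mem h1 h4
        refine ⟨h5, ?_⟩
        have h6 : (⟨_, h5⟩ : A) = ⟨_, h1⟩ * ⟨_, h4⟩ := Subtype.ext h3
        have h7 := hf (x, a) ha h4
        rw [h6, map_mul, toAdd_mul, h2, h7]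
        ring
      | bwd x g a _ ha ih =>
        obtain ⟨h1, h2⟩ := ih
        have h3 : γ v * (g * (l a)⁻¹) * (γ x)⁻¹ =
            (γ v * g * (γ (τ a x))⁻¹) * (γ x * l a * (γ (τ a x))⁻¹)⁻¹ := by group
        have h4 := hmem (x, a) ha
        have h5 : γ v * (g * (l a)⁻¹) * (γ x)⁻¹ ∈ A := by
          rw [h3]; exact mul_mem h1 (inv_mem h4)
        refine ⟨h5, ?_⟩
        have h6 : (⟨_, h5⟩ : A) = ⟨_, h1⟩ * (⟨_, h4⟩)⁻¹ := Subtype.ext h3
        have h7 := hf (x, a) ha h4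
        rw [h6, map_mul, toAdd_mul, map_inv, toAdd_inv, h2, h7]
        ring
    have hbb : ∀ v, base τ l EC (base τ l EC v) = base τ l EC v := fun v =>
      base_eq τ l EC _ _ _ (hγ v)
    have e0 : ∀ v, γ (base τ l EC v) * γ v * (γ v)⁻¹ = γ (base τ l EC v) := fun v => by group
    have hb0 : ∀ v, ∃ h : γ (base τ l EC v) ∈ A,
        Multiplicative.toAdd (ψ ⟨_, h⟩) = f v - f (base τ l EC v) := by
      intro v
      obtain ⟨h1, h2⟩ := key _ _ _ (hγ v)
      have h3 : γ (base τ l EC v) ∈ A := by rw [← e0 v]; exact h1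
      refine ⟨h3, ?_⟩
      rw [← h2]
      congr 2
      exact Subtype.ext (e0 v).symm
    have hfb : ∀ v, f v = f (base τ l EC v) := by
      intro v
      obtain ⟨h1, h2⟩ := hb0 v
      obtain ⟨h3, h4⟩ := hb0 (base τ l EC v)
      have h5 : (⟨_, h3⟩ : A) = ⟨_, h1⟩ := Subtype.ext (congrArg γ (hbb v))
      rw [h5, hbb v, sub_self] at h4
      rw [h4] at h2
      exact (sub_eq_zero.mp h2.symm)
    have hgen : ∀ e (he : e ∈ EC), ψ ⟨hh e, hmem e he⟩ = 1 := by
      intro e he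
      have h1 := hf e he (hmem e he)
      have h2 : Rc τ l EC e.1 (1 * l e.2) (τ e.2 e.1) :=
        Rc.fwd _ _ _ _ (Rc.refl _) he
      have h3 := base_eq τ l EC _ _ _ h2
      rw [hfb (τ e.2 e.1), ← h3, ← hfb, sub_self] at h1
      exact Multiplicative.toAdd.injective h1
    refine hψ (MonoidHom.ext ?_)
    rintro ⟨x, hx⟩
    rw [MonoidHom.one_apply]
    induction hx using Subgroup.closure_induction with
    | mem x hx =>
      obtain ⟨e, he, rfl⟩ := hx
      exact hgen e he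
    | one => exact map_one ψ
    | mul x y hx hy ihx ihy =>
      have h1 : (⟨x * y, mul_mem hx hy⟩ : A) = ⟨x, hx⟩ * ⟨y, hy⟩ := rfl
      rw [h1, map_mul, ihx, ihy, one_mul]
    | inv x hx ih =>
      have h1 : (⟨x⁻¹, inv_mem hx⟩ : A) = (⟨x, hx⟩)⁻¹ := rfl
      rw [h1, map_inv, ih, inv_one]
  refine ⟨γ, fun e he => ?_⟩
  have h1 := hmem e he
  rw [hbot] at h1
  exact h1

end Vale.Agent.P174
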