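import Vale.Agent.P174.Gauge

/-!
# P174: change of gauge on one component
-/

namespace Vale.Agent.P174

open Monoid

universe u v w

open GaugeX in
theorem gauge2 (p : ℕ) [Fact p.Prime] {Q : Type u} [Group Q] {V : Type} {Λ : Type u}
    (τ : Λ → V ≃ V) (l : Λ → Q) (EC : Set (V × Λ)) (hfin : EC.Finite) (v₀ : V)
    (H : ∀ (γ : V → Q) (A : Subgroup Q) (ψ : A →* Multiplicative (ZMod p)) (C : Set V),
      (∀ e ∈ EC, e.1 ∈ C ↔ τ e.2 e.1 ∈ C) →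
      (∀ e ∈ EC, e.1 ∈ C → γ e.1 * l e.2 * (γ (τ e.2 e.1))⁻¹ ∈ A) →
      ∃ f : V → ZMod p, ∀ e ∈ EC, e.1 ∈ C → ∀ h : γ e.1 * l e.2 * (γ (τ e.2 e.1))⁻¹ ∈ A,
        Multiplicative.toAdd (ψ ⟨_, h⟩) = f (τ e.2 e.1) - f e.1) :
    ∃ (γ : V → Q) (A : Subgroup Q) (C : Set V), v₀ ∈ C ∧ A.FG ∧
      (∀ ψ : A →* Multiplicative (ZMod p), ψ = 1) ∧
      (∀ e ∈ EC, e.1 ∈ C ↔ τ e.2 e.1 ∈ C) ∧
      (∀ e ∈ EC, e.1 ∈ C → γ e.1 * l e.2 * (γ (τ e.2 e.1))⁻¹ ∈ A) := by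
  choose γ hγ using base_rel τ l EC
  let hh : V × Λ → Q := fun e => γ e.1 * l e.2 * (γ (τ e.2 e.1))⁻¹
  let C : Set V := {v | base τ l EC v = base τ l EC v₀}
  have hC : ∀ v g v', Rc τ l EC v g v' → (v ∈ C ↔ v' ∈ C) := by
    intro v g v' h
    change base τ l EC v = _ ↔ base τ l EC v' = _
    rw [base_eq τ l EC v v' g h]
  have hCe : ∀ e ∈ EC, (e.1 ∈ C ↔ τ e.2 e.1 ∈ C) := by
    intro e he
    exact hC e.1 (1 * l e.2) (τ e.2 e.1) (Rc.fwd _ _ _ _ (Rc.refl _) he)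
  set A : Subgroup Q := Subgroup.closure (hh '' {e ∈ EC | e.1 ∈ C}) with hA
  have hmem : ∀ e ∈ EC, e.1 ∈ C → hh e ∈ A := fun e he hc =>
    Subgroup.subset_closure ⟨e, ⟨he, hc⟩, rfl⟩
  have hFG : A.FG := (Subgroup.fg_iff A).mpr ⟨hh '' {e ∈ EC | e.1 ∈ C}, hA.symm,
    (hfin.subset (Set.sep_subset _ _)).image _⟩
  refine ⟨γ, A, C, rfl, hFG, fun ψ => ?_, hCe, hmem⟩
  obtain ⟨f, hf⟩ := H γ A ψ C hCe hmem
  have key : ∀ v g v', Rc τ l EC v g v' → v ∈ C → ∃ h : γ v * g * (γ v')⁻¹ ∈ A,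
      Multiplicative.toAdd (ψ ⟨_, h⟩) = f v' - f v := by
    intro v g v' hR hv
    induction hR with
    | refl =>
      have h1 : γ v * 1 * (γ v)⁻¹ = 1 := by group
      have h2 : γ v * 1 * (γ v)⁻¹ ∈ A := by rw [h1]; exact one_mem _
      refine ⟨h2, ?_⟩
      have h3 : (⟨_, h2⟩ : A) = 1 := Subtype.ext h1
      rw [h3, map_one, sub_self]
      rfl
    | fwd x g a hx ha ih =>
      obtain ⟨h1, h2⟩ := ih
      have hxC : x ∈ C := (hC _ _ _ hx).mp hv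
      have h3 : γ v * (g * l a) * (γ (τ a x))⁻¹ =
          (γ v * g * (γ x)⁻¹) * (γ x * l a * (γ (τ a x))⁻¹) := by group
      have h4 := hmem (x, a) ha hxC
      have h5 : γ v * (g * l a) * (γ (τ a x))⁻¹ ∈ A := by
        rw [h3]; exact mul_mem h1 h4
      refine ⟨h5, ?_⟩
      have h6 : (⟨_, h5⟩ : A) = ⟨_, h1⟩ * ⟨_, h4⟩ := Subtype.ext h3
      have h7 := hf (x, a) ha hxC h4
      rw [h6, map_mul, toAdd_mul, h2, h7]
      ring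
    | bwd x g a hx ha ih =>
      obtain ⟨h1, h2⟩ := ih
      have hxC : x ∈ C := (hCe (x, a) ha).mpr ((hC _ _ _ hx).mp hv)
      have h3 : γ v * (g * (l a)⁻¹) * (γ x)⁻¹ =
          (γ v * g * (γ (τ a x))⁻¹) * (γ x * l a * (γ (τ a x))⁻¹)⁻¹ := by group
      have h4 := hmem (x, a) ha hxC
      have h5 : γ v * (g * (l a)⁻¹) * (γ x)⁻¹ ∈ A := by
        rw [h3]; exact mul_mem h1 (inv_mem h4)
      refine ⟨h5, ?_⟩
      have h6 : (⟨_, h5⟩ : A) = ⟨_, h1⟩ * (⟨_, h4⟩)⁻¹ := Subtype.ext h3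
      have h7 := hf (x, a) ha hxC h4
      rw [h6, map_mul, toAdd_mul, map_inv, toAdd_inv, h2, h7]
      ring
  have hfb : ∀ v ∈ C, ∀ v' ∈ C, f v = f v' := by
    intro v hv v' hv'
    obtain ⟨h1, h2⟩ := key _ _ _ (hγ v).symm hv
    obtain ⟨h3, h4⟩ := key _ _ _ (hγ v').symm hv'
    have hb : base τ l EC v = base τ l EC v' := Eq.trans hv (Eq.symm hv')
    have h5 : (⟨_, h1⟩ : A) = ⟨_, h3⟩ := by
      apply Subtype.ext
      simp only [mul_inv_cancel, one_mul]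
      rw [hb]
    rw [h5, h4, hb] at h2
    exact (sub_right_inj.mp h2).symm
  have hgen : ∀ e (he : e ∈ EC) (hc : e.1 ∈ C), ψ ⟨hh e, hmem e he hc⟩ = 1 := by
    intro e he hc
    have h1 := hf e he hc (hmem e he hc)
    rw [hfb _ ((hCe e he).mp hc) _ hc, sub_self] at h1
    exact Multiplicative.toAdd.injective h1
  refine MonoidHom.ext ?_
  rintro ⟨x, hx⟩
  rw [MonoidHom.one_apply]
  induction hx using Subgroup.closure_induction with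
  | mem x hx =>
    obtain ⟨e, ⟨he, hc⟩, rfl⟩ := hx
    exact hgen e he hc
  | one => exact map_one ψ
  | mul x y hx hy ihx ihy =>
    have h1 : (⟨x * y, mul_mem hx hy⟩ : A) = ⟨x, hx⟩ * ⟨y, hy⟩ := rfl
    rw [h1, map_mul, ihx, ihy, one_mul]
  | inv x hx ih =>
    have h1 : (⟨x⁻¹, inv_mem hx⟩ : A) = (⟨x, hx⟩)⁻¹ := rfl
    rw [h1, map_inv, ih, inv_one]

end Vale.Agent.P174
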