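import Vale.Agent.P174.Defs

/-!
# P174, INF: compactness
-/

namespace Vale.Agent.P174

open Monoid

universe u v w x

namespace InfX

theorem ev_inl {G : Type u} [Group G] {X : Type v} {H : Type w} [Group H] (i : G →* H) (h : X → H)
    (g : G) : ev i h (Coprod.inl g) = i g := by
  simp [ev]

theorem ev_inr {G : Type u} [Group G] {X : Type v} {H : Type w} [Group H] (i : G →* H) (h : X → H)
    (a : X) : ev i h (Coprod.inr (FreeGroup.of a)) = h a := by
  simp [ev]

/-- the normal closure of a family is the union of the normal closures of its finite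
subfamilies -/
theorem fin_normalClosure {K : Type v} [Group K] {ι : Type w} (w : ι → K) (z : K)
    (hz : z ∈ Subgroup.normalClosure (Set.range w)) :
    ∃ S : Finset ι, z ∈ Subgroup.normalClosure (w '' (S : Set ι)) := by
  classical
  rw [Subgroup.normalClosure] at hz
  induction hz using Subgroup.closure_induction with
  | mem z hz =>
    rw [Group.mem_conjugatesOfSet_iff] at hz
    obtain ⟨a, ⟨i, rfl⟩, hc⟩ := hz
    refine ⟨{i}, Subgroup.conjugatesOfSet_subset_normalClosure ?_⟩
    rw [Group.mem_conjugatesOfSet_iff]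
    exact ⟨w i, ⟨i, by simp, rfl⟩, hc⟩
  | one => exact ⟨∅, one_mem _⟩
  | mul x y _ _ hx hy =>
    obtain ⟨S, hS⟩ := hx
    obtain ⟨T, hT⟩ := hy
    refine ⟨S ∪ T, mul_mem ?_ ?_⟩
    · exact Subgroup.normalClosure_mono (Set.image_mono (by simp)) hS
    · exact Subgroup.normalClosure_mono (Set.image_mono (by simp)) hT
  | inv x _ hx =>
    obtain ⟨S, hS⟩ := hx
    exact ⟨S, inv_mem hS⟩

open Classical in
/-- forgetting all but finitely many unknowns -/
noncomputable def ret {G : Type u} [Group G] {X : Type v} (Y : Finset X) :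
    Coprod G (FreeGroup X) →* Coprod G (FreeGroup (Fin Y.card)) :=
  ev Coprod.inl (fun a => if h : a ∈ Y then Coprod.inr (FreeGroup.of (Y.equivFin ⟨a, h⟩)) else 1)

theorem ret_expo {p : ℕ} {G : Type u} [Group G] {X : Type v} (Y : Finset X)
    (z : Coprod G (FreeGroup X)) (j : Fin Y.card) :
    (expo (ret Y z) j : ZMod p) = Multiplicative.toAdd (ex p z) (Y.equivFin.symm j) := by
  classical
  let a1 : (Fin Y.card →₀ ℤ) →+ ZMod p :=
    (Int.castAddHom (ZMod p)).comp (Finsupp.applyAddHom j)
  let A : Coprod G (FreeGroup X) →* Multiplicative (ZMod p) :=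
    (AddMonoidHom.toMultiplicative a1).comp
      ((ev (1 : G →* Multiplicative (Fin Y.card →₀ ℤ))
        (fun j => Multiplicative.ofAdd (Finsupp.single j 1))).comp (ret Y))
  let b1 : (X →₀ ZMod p) →+ ZMod p := Finsupp.applyAddHom (Y.equivFin.symm j : X)
  let B : Coprod G (FreeGroup X) →* Multiplicative (ZMod p) :=
    (AddMonoidHom.toMultiplicative b1).comp (ex p)
  have hAB : A = B := by
    refine Coprod.hom_ext ?_ ?_
    · ext g
      simp [A, B, a1, b1, ret, ex, ev_inl]
    · ext a
      by_cases h : a ∈ Y
      · by_cases h' : Y.equivFin ⟨a, h⟩ = j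
        · have h2 : a = (Y.equivFin.symm j : X) := by rw [← h']; simp
          simp [A, B, a1, b1, ret, ex, ev_inr, h, h', ← h2]
        · have h2 : a ≠ (Y.equivFin.symm j : X) := by
            rintro rfl
            exact h' (by simp)
          simp [A, B, a1, b1, ret, ex, ev_inr, h, h', h2]
      · have h2 : a ≠ (Y.equivFin.symm j : X) := by
          rintro rfl
          exact h (Y.equivFin.symm j).2
        simp [A, B, a1, b1, ret, ex, ev_inr, h, h2]
  have h := DFunLike.congr_fun hAB z
  exact Multiplicative.ofAdd.injective h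

end InfX

open InfX in
theorem inf : S_INF.{u} := by
  intro p _ G _ hG ι X w hind g hg
  classical
  obtain ⟨S, hS⟩ := fin_normalClosure w _ hg
  set Y : Finset X := S.biUnion fun i => (Multiplicative.toAdd (ex p (w i))).support with hY
  let σ : Fin S.card → ι := fun k => (S.equivFin.symm k : ι)
  have hσ : Function.Injective σ := fun a b h => S.equivFin.symm.injective (Subtype.ext h)
  have hns : NonsingP p (fun k : Fin S.card => ret Y (w (σ k))) := by
    rw [NonsingP, Fintype.linearIndependent_iff]
    intro c hc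
    have hind' := hind.comp σ hσ
    rw [Fintype.linearIndependent_iff] at hind'
    refine hind' c ?_
    ext a
    simp only [Function.comp_apply, Finsupp.coe_finsetSum, Finset.sum_apply, Finsupp.coe_smul,
      Pi.smul_apply, smul_eq_mul, Finsupp.coe_zero, Pi.zero_apply]
    by_cases ha : a ∈ Y
    · have h1 := congrFun hc (Y.equivFin ⟨a, ha⟩)
      simp only [Finset.sum_apply, Pi.smul_apply, smul_eq_mul, Pi.zero_apply, ret_expo,
        Equiv.symm_apply_apply] at h1
      exact h1
    · refine Finset.sum_eq_zero fun k _ => ?_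
      have h2 : Multiplicative.toAdd (ex p (w (σ k))) a = 0 := by
        by_contra hne
        refine ha ?_
        rw [hY, Finset.mem_biUnion]
        exact ⟨σ k, (S.equivFin.symm k).2, Finsupp.mem_support_iff.mpr hne⟩
      rw [h2, mul_zero]
  obtain ⟨H, _, i, h, hi, hk⟩ := hG S.card Y.card _ hns
  have h1 : Subgroup.normalClosure (w '' (S : Set ι)) ≤ ((ev i h).comp (ret Y)).ker := by
    refine Subgroup.normalClosure_le_normal ?_
    rintro _ ⟨a, ha, rfl⟩
    have h2 := hk (S.equivFin ⟨a, ha⟩)
    simp only [σ, Equiv.symm_apply_apply] at h2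
    exact h2
  have h2 := h1 hS
  rw [MonoidHom.mem_ker, MonoidHom.comp_apply, ret, ev_inl, ev_inl] at h2
  exact hi (h2.trans (map_one i).symm)

end Vale.Agent.P174
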