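import Vale.Agent.P174.Main

/-!
# P174: elements of the kernel
-/

namespace Vale.Agent.P174

open Monoid WALK

universe u v w

namespace TOW

/-- the one-point structure -/
lemma onePoint (p : ℕ) [Fact p.Prime] (G : Type u) [Group G] {m n : ℕ}
    (w : Fin m → Coprod G (FreeGroup (Fin n))) (hW : Ind p (EXT.up w))
    (W : ULift.{u} (Fin m) → FreeGroup (G ⊕ ULift.{u} (Fin n)))
    (hWw : ∀ i, FreeGroup.lift (Sum.elim (fun a => (Coprod.inl a :
      Coprod G (FreeGroup (ULift.{u} (Fin n))))) (fun j => Coprod.inr (FreeGroup.of j))) (W i) =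
      EXT.up w i)
    (JW : Set (FreeGroup (G ⊕ ULift.{u} (Fin n)) × ULift.{u} (Fin m)))
    (JS : Set (FreeGroup (G ⊕ ULift.{u} (Fin n)) × G × G)) :
    ∃ (V : Type) (σ : G ⊕ ULift.{u} (Fin n) → V ≃ V) (v₀ : V), Gd p W JW JS σ v₀ := by
  refine ⟨Unit, fun _ => Equiv.refl _, (), fun _ _ _ => rfl, fun _ _ _ _ => rfl, ?_⟩
  have hrow : ∀ z : FreeGroup (G ⊕ ULift.{u} (Fin n)),
      (rw' p (fun _ => Equiv.refl Unit) z ()).mapDomain Prod.snd = Multiplicative.toAdd
        (ex p (FreeGroup.lift (Sum.elim (fun a => (Coprod.inl a :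
          Coprod G (FreeGroup (ULift.{u} (Fin n)))))
          (fun j => Coprod.inr (FreeGroup.of j))) z)) := by
    intro z
    have h1 := lb_map (fun _ : G ⊕ ULift.{u} (Fin n) => Equiv.refl Unit)
      (AddMonoidHom.toMultiplicative (Finsupp.mapDomain.addMonoidHom (M := ZMod p)
        (Prod.snd : Unit × ULift.{u} (Fin n) → ULift.{u} (Fin n))))
      (fun (v : Unit) (a : G ⊕ ULift.{u} (Fin n)) => Sum.elim
        (fun _ : G => (1 : Multiplicative (Unit × ULift.{u} (Fin n) →₀ ZMod p)))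
        (fun j => Multiplicative.ofAdd (Finsupp.single (v, j) 1)) a) z ()
    have h2 : ∀ z : FreeGroup (G ⊕ ULift.{u} (Fin n)), ∀ v,
        lb (fun _ : G ⊕ ULift.{u} (Fin n) => Equiv.refl Unit)
        (fun (v : Unit) (a : G ⊕ ULift.{u} (Fin n)) =>
          (AddMonoidHom.toMultiplicative (Finsupp.mapDomain.addMonoidHom (M := ZMod p)
        (Prod.snd : Unit × ULift.{u} (Fin n) → ULift.{u} (Fin n)))) (Sum.elim
        (fun _ : G => (1 : Multiplicative (Unit × ULift.{u} (Fin n) →₀ ZMod p)))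
        (fun j => Multiplicative.ofAdd (Finsupp.single (v, j) 1)) a)) z v =
        ex p (FreeGroup.lift (Sum.elim (fun a => (Coprod.inl a :
          Coprod G (FreeGroup (ULift.{u} (Fin n)))))
          (fun j => Coprod.inr (FreeGroup.of j))) z) := by
      intro z
      induction z using FreeGroup.induction_on with
      | C1 => intro v; simp
      | of a =>
        intro v
        cases a with
        | inl a => simp [WR.ex_inl]
        | inr j => simp [WR.ex_of]
      | inv_of a ih => intro v; rw [lb_inv, ih, map_inv, map_inv]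
      | mul a b iha ihb => intro v; rw [lb_mul, iha, ihb, map_mul, map_mul]
    exact congrArg Multiplicative.toAdd (h1.trans (h2 z ()))
  refine LinearIndependent.of_comp (Finsupp.lmapDomain (ZMod p) (ZMod p)
    (Prod.snd : Unit × ULift.{u} (Fin n) → ULift.{u} (Fin n))) ?_
  have he : (⇑(Finsupp.lmapDomain (ZMod p) (ZMod p)
      (Prod.snd : Unit × ULift.{u} (Fin n) → ULift.{u} (Fin n))) ∘
      fun c : {c : Unit × ULift.{u} (Fin m) // ∃ u, (u, c.2) ∈ JW ∧
        en (fun _ : G ⊕ ULift.{u} (Fin n) => Equiv.refl Unit) u () = c.1} =>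
        rw' p (fun _ => Equiv.refl Unit) (W c.1.2) c.1.1) =
      ((fun i => Multiplicative.toAdd (ex p (EXT.up w i))) ∘ fun c => c.1.2) := by
    funext c
    simp only [Function.comp_apply, Finsupp.lmapDomain_apply]
    rw [← hWw]
    exact hrow _
  rw [he]
  refine LinearIndependent.comp hW _ ?_
  rintro ⟨⟨v, i⟩, hc⟩ ⟨⟨v', i'⟩, hc'⟩ h
  simp only at h
  subst h
  rfl

/-- an element of `G` that becomes trivial lies in a finitely generated subgroup without
quotient of order `p` -/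
theorem kernel_elem (p : ℕ) [Fact p.Prime] (G : Type u) [Group G] {m n : ℕ}
    (w : Fin m → Coprod G (FreeGroup (Fin n))) (hw : NonsingP p w) (g : G)
    (hg : Coprod.inl g ∈ Subgroup.normalClosure (Set.range w)) :
    ∃ K : Subgroup G, K.FG ∧ g ∈ K ∧ ¬ OntoP p K := by
  classical
  have hW := EXT.ind_up p w hw
  have hg' : Coprod.inl g ∈ Subgroup.normalClosure (Set.range (EXT.up w)) := by
    have hle : Subgroup.normalClosure (Set.range w) ≤
        (Subgroup.normalClosure (Set.range (EXT.up w))).comap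
          (EXT.ren (ULift.up : Fin n → ULift.{u} (Fin n))) := by
      refine Subgroup.normalClosure_le_normal ?_
      rintro _ ⟨k, rfl⟩
      exact Subgroup.subset_normalClosure ⟨ULift.up k, rfl⟩
    have h1 := hle hg
    rw [Subgroup.mem_comap] at h1
    have h2 : EXT.ren (ULift.up : Fin n → ULift.{u} (Fin n)) (Coprod.inl g) = Coprod.inl g := by
      simp [EXT.ren]
    rwa [h2] at h1
  obtain ⟨W, hWw, hwit⟩ := vk G (ULift.{u} (Fin n)) (ULift.{u} (Fin m)) (EXT.up w)
  obtain ⟨JW, JS, hJW, hJS, hcl⟩ := hwit g hg'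
  obtain ⟨V, σ, v₀, hgd, hmax⟩ := exists_max p W JW JS hJW (ZZ g JS) (ZZ_finite g hJS)
    (onePoint p G w hW W hWw JW JS)
  obtain ⟨γ, A, C, hv₀, hfg, hψ, hC, hA⟩ := gauge2 p (fun a => σ (Sum.inl a)) (fun a : G => a)
    (EE σ v₀ (ZZ g JS)) (EE_finite σ v₀ (ZZ_finite g hJS)) v₀ (by
      intro γ A ψ C hC hA
      exact gaugeHyp2 p W JW JS g σ v₀ hgd hmax γ A ψ C hC hA)
  let Fix : Subgroup (FreeGroup (G ⊕ ULift.{u} (Fin n))) :=
    { carrier := {z | en σ z v₀ = v₀}
      one_mem' := by simp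
      mul_mem' := by
        intro a b ha hb
        change en σ a v₀ = v₀ at ha
        change en σ b v₀ = v₀ at hb
        change en σ (a * b) v₀ = v₀
        rw [en_mul, ha, hb]
      inv_mem' := by
        intro a ha
        change en σ a v₀ = v₀ at ha
        change en σ a⁻¹ v₀ = v₀
        have := en_inv_en σ a v₀
        rwa [ha] at this }
  have hle : Subgroup.closure
          ({z | ∃ u i, (u, i) ∈ JW ∧ z = u * W i * u⁻¹} ∪
            {z | ∃ u a b, (u, a, b) ∈ JS ∧ z = u * srel G _ a b * u⁻¹}) ≤ Fix := by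
    rw [Subgroup.closure_le]
    rintro z (⟨u, i, hu, rfl⟩ | ⟨u, a, b, hu, rfl⟩)
    · change en σ (u * W i * u⁻¹) v₀ = v₀
      rw [en_mul, en_mul, hgd.cW u i hu, en_inv_en]
    · change en σ (u * srel G _ a b * u⁻¹) v₀ = v₀
      rw [en_mul, en_mul, hgd.cS u a b hu, en_inv_en]
  have hg1 : σ (Sum.inl g) v₀ = v₀ := by
    have h1 : en σ (FreeGroup.of (Sum.inl g)) v₀ = v₀ := hle hcl
    rwa [en_of] at h1
  have hmem : (v₀, g) ∈ EE σ v₀ (ZZ g JS) :=
    ⟨1, Or.inl (by simp), Or.inl (by simp), by simp⟩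
  have hgA := hA _ hmem hv₀
  simp only at hgA
  rw [hg1] at hgA
  refine ⟨A.map (MulAut.conj (γ v₀)⁻¹).toMonoidHom, ?_, ?_, ?_⟩
  · obtain ⟨S, hS⟩ := hfg
    exact (Subgroup.fg_iff _).mpr ⟨(MulAut.conj (γ v₀)⁻¹).toMonoidHom '' (S : Set G), by
      rw [← hS, MonoidHom.map_closure], S.finite_toSet.image _⟩
  · refine ⟨_, hgA, ?_⟩
    simp [mul_assoc]
  · intro h
    obtain ⟨ψ, hψ1⟩ := MAIN.ne_one_of_ontoP p h
    apply hψ1
    have h1 := hψ (ψ.comp ((MulAut.conj (γ v₀)⁻¹).toMonoidHom.subgroupMap A))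
    ext x
    obtain ⟨y, rfl⟩ := (MulAut.conj (γ v₀)⁻¹).toMonoidHom.subgroupMap_surjective A x
    exact DFunLike.congr_fun h1 y

end TOW

end Vale.Agent.P174
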