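import Vale.Agent.P174.Base

/-!
# P174: killed elements
-/

namespace Vale.Agent.P174

open Monoid

universe u

/-- `g` is killed by a nonsingular finite system `w` over `G`: it becomes trivial in the quotient
of the free product of `G` and the free group by the normal closure of `w` -/
def Killed (G : Type u) [Group G] (g : G) : Prop :=
  ∃ (m n : ℕ) (w : Fin m → Coprod G (FreeGroup (Fin n))), Nonsing w ∧
    Coprod.inl g ∈ Subgroup.normalClosure (Set.range w)

/-- the same for a finite system nonsingular modulo `p` -/
def KilledP (p : ℕ) (G : Type u) [Group G] (g : G) : Prop :=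
  ∃ (m n : ℕ) (w : Fin m → Coprod G (FreeGroup (Fin n))), NonsingP p w ∧
    Coprod.inl g ∈ Subgroup.normalClosure (Set.range w)

end Vale.Agent.P174
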