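import Vale.Agent.P174.Defs

/-!
# P174: independence over the group ring of a finite `p`-group
-/

namespace Vale.Agent.P174

universe u v w

namespace LIN

lemma mapDomain_snd_apply {P : Type u} [Fintype P] {X : Type w} {R : Type v} [AddCommMonoid R]
    (D : P × X →₀ R) (j : X) : D.mapDomain Prod.snd j = ∑ y : P, D (y, j) := by
  classical
  induction D using Finsupp.induction_linear with
  | zero => simp
  | add f g hf hg => rw [Finsupp.mapDomain_add, Finsupp.add_apply, hf, hg, ← Finset.sum_add_distrib]; rfl
  | single a r =>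
    obtain ⟨a, b⟩ := a
    rw [Finsupp.mapDomain_single, Finsupp.single_apply]
    rw [Finset.sum_eq_single a]
    · rw [Finsupp.single_apply]
      simp
    · intro y _ hy
      rw [Finsupp.single_apply, if_neg]
      simp only [Prod.mk.injEq, not_and]
      intro h
      exact absurd h.symm hy
    · intro h
      exact absurd (Finset.mem_univ a) h

end LIN

open LIN in
theorem lin : S_LIN.{u, v, w} := by
  intro p _ P _ _ hP ι _ X D hD
  classical
  have := Fintype.ofFinite P
  have := Fintype.ofFinite ι
  let T : P → ((P × X →₀ ZMod p) →ₗ[ZMod p] (P × X →₀ ZMod p)) := fun y =>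
    Finsupp.lmapDomain (ZMod p) (ZMod p) (fun aj : P × X => (aj.1 * y, aj.2))
  have hT : ∀ y z v, T (y * z) v = T z (T y v) := by
    intro y z v
    simp only [T, Finsupp.lmapDomain_apply]
    rw [← Finsupp.mapDomain_comp]
    congr 1
    funext a
    simp [mul_assoc]
  let Λ : (ι × P → ZMod p) →ₗ[ZMod p] (P × X →₀ ZMod p) :=
    Fintype.linearCombination (ZMod p) (fun iy : ι × P => T iy.2 (D iy.1))
  have hΛ : ∀ v, Λ v = ∑ i : ι, ∑ y : P, v (i, y) • T y (D i) := by
    intro v
    simp only [Λ, Fintype.linearCombination_apply]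
    rw [Fintype.sum_prod_type]
  have hinv : ∀ (z : P) (v : ι × P → ZMod p), Λ (fun iy => v (iy.1, iy.2 * z)) = T z⁻¹ (Λ v) := by
    intro z v
    rw [hΛ, hΛ, map_sum]
    refine Finset.sum_congr rfl fun i _ => ?_
    rw [map_sum]
    refine Fintype.sum_equiv (Equiv.mulRight z) _ _ fun y => ?_
    simp only [Equiv.coe_mulRight, map_smul]
    rw [← hT]
    simp
  have hker : LinearMap.ker Λ = ⊥ := by
    by_contra hne
    let K := LinearMap.ker Λ
    let act : MulAction P K :=
      { smul := fun z v => ⟨fun iy => v.1 (iy.1, iy.2 * z), by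
          rw [LinearMap.mem_ker, hinv, LinearMap.mem_ker.mp v.2, map_zero]⟩
        one_smul := fun v => by
          apply Subtype.ext
          funext iy
          change v.1 (iy.1, iy.2 * 1) = v.1 iy
          rw [mul_one]
        mul_smul := fun z z' v => by
          apply Subtype.ext
          funext iy
          change v.1 (iy.1, iy.2 * (z * z')) = v.1 (iy.1, iy.2 * z * z')
          rw [mul_assoc] }
    have hfin : Finite K := inferInstance
    have hnt : Nontrivial K := Submodule.nontrivial_iff_ne_bot.mpr hne
    have hcard : p ∣ Nat.card K := by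
      have h1 : Nat.card K = Nat.card (ZMod p) ^ Module.finrank (ZMod p) K :=
        Module.natCard_eq_pow_finrank
      rw [h1, Nat.card_zmod]
      exact dvd_pow_self p (Module.finrank_pos (R := ZMod p) (M := K)).ne'
    have h0 : (0 : K) ∈ MulAction.fixedPoints P K := by
      intro z
      apply Subtype.ext
      rfl
    obtain ⟨b, hb, hb0⟩ := hP.exists_fixed_point_of_prime_dvd_card_of_fixed_point K hcard h0
    have hconst : ∀ i y, b.1 (i, y) = b.1 (i, 1) := by
      intro i y
      have := congrFun (congrArg Subtype.val (hb y)) (i, 1)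
      change b.1 (i, 1 * y) = b.1 (i, 1) at this
      rwa [one_mul] at this
    have hb1 := LinearMap.mem_ker.mp b.2
    rw [hΛ] at hb1
    have hrow : ∀ j, ∑ i, b.1 (i, 1) • (D i).mapDomain Prod.snd j = 0 := by
      intro j
      have h2 := DFunLike.congr_fun hb1 ((1 : P), j)
      rw [Finsupp.finsetSum_apply, Finsupp.zero_apply] at h2
      rw [← h2]
      refine Finset.sum_congr rfl fun i _ => ?_
      rw [Finsupp.finsetSum_apply, mapDomain_snd_apply, Finset.smul_sum]
      refine Fintype.sum_equiv (Equiv.inv P) _ _ fun y => ?_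
      rw [Equiv.inv_apply, Finsupp.smul_apply, hconst i y⁻¹]
      congr 1
      have hinj : Function.Injective (fun aj : P × X => (aj.1 * y⁻¹, aj.2)) := by
        rintro ⟨a, j⟩ ⟨a', j'⟩ h
        simpa using h
      have h3 := Finsupp.mapDomain_apply hinj (D i) (y, j)
      simp only [mul_inv_cancel] at h3
      exact h3.symm
    have hc := Fintype.linearIndependent_iff.mp hD (fun i => b.1 (i, 1)) (by
      ext j
      rw [Finsupp.finsetSum_apply]
      exact hrow j)
    apply hb0
    apply Subtype.ext
    funext iy
    change (0 : ZMod p) = b.1 iy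
    rw [show iy = (iy.1, iy.2) from rfl, hconst, hc]
  rw [Fintype.linearIndependent_iff]
  intro g hg
  have h1 : g ∈ LinearMap.ker Λ := by
    rw [LinearMap.mem_ker]
    simp only [Λ, Fintype.linearCombination_apply]
    exact hg
  rw [hker, Submodule.mem_bot] at h1
  intro i
  rw [h1]
  rfl

end Vale.Agent.P174
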