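import Vale.Agent.P174.Kern

/-!
# P174: localization
-/

namespace Vale.Agent.P174

open Monoid WALK

universe u v w

open InfX in
/-- finite systems suffice, for one element -/
theorem inf_elem (p : ℕ) [Fact p.Prime] (G : Type u) [Group G] (ι X : Type u)
    (w : ι → Coprod G (FreeGroup X)) (hind : Ind p w) (g : G)
    (hg : Coprod.inl g ∈ Subgroup.normalClosure (Set.range w)) :
    ∃ (m n : ℕ) (w' : Fin m → Coprod G (FreeGroup (Fin n))), NonsingP p w' ∧
      Coprod.inl g ∈ Subgroup.normalClosure (Set.range w') := by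
  classical
  obtain ⟨S, hS⟩ := fin_normalClosure w _ hg
  set Y : Finset X := S.biUnion fun i => (Multiplicative.toAdd (ex p (w i))).support with hY
  let σ : Fin S.card → ι := fun k => (S.equivFin.symm k : ι)
  have hσ : Function.Injective σ := fun a b h => S.equivFin.symm.injective (Subtype.ext h)
  have hns : NonsingP p (fun k : Fin S.card => ret Y (w (σ k))) := by
    rw [NonsingP, Fintype.linearIndependent_iff]
    intro c hc
    have hind' := hind.comp σ hσ
    rw [Fintype.linearIndependent_iff] at hind'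
    refine hind' c ?_
    ext a
    simp only [Function.comp_apply, Finsupp.coe_finsetSum, Finset.sum_apply, Finsupp.coe_smul,
      Pi.smul_apply, smul_eq_mul, Finsupp.coe_zero, Pi.zero_apply]
    by_cases ha : a ∈ Y
    · have h1 := congrFun hc (Y.equivFin ⟨a, ha⟩)
      simp only [Finset.sum_apply, Pi.smul_apply, smul_eq_mul, Pi.zero_apply, ret_expo,
        Equiv.symm_apply_apply] at h1
      exact h1
    · refine Finset.sum_eq_zero fun k _ => ?_
      have h2 : Multiplicative.toAdd (ex p (w (σ k))) a = 0 := by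
        by_contra hne
        refine ha ?_
        rw [hY, Finset.mem_biUnion]
        exact ⟨σ k, (S.equivFin.symm k).2, Finsupp.mem_support_iff.mpr hne⟩
      rw [h2, mul_zero]
  refine ⟨S.card, Y.card, _, hns, ?_⟩
  have h1 : Subgroup.normalClosure (w '' (S : Set ι)) ≤ (Subgroup.normalClosure
      (Set.range (fun k : Fin S.card => ret Y (w (σ k))))).comap (ret Y) := by
    refine Subgroup.normalClosure_le_normal ?_
    rintro _ ⟨a, ha, rfl⟩
    refine Subgroup.subset_normalClosure ⟨S.equivFin ⟨a, ha⟩, ?_⟩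
    simp only [σ, Equiv.symm_apply_apply]
  have h2 := h1 hS
  rw [Subgroup.mem_comap, ret, InfX.ev_inl] at h2
  exact h2

namespace TOW

/-- the last step: the derived system over `N` -/
lemma last3 (p : ℕ) [Fact p.Prime] {G : Type u} [Group G] {X ι : Type u}
    (W : ι → FreeGroup (G ⊕ X)) (JW : Set (FreeGroup (G ⊕ X) × ι))
    (JS : Set (FreeGroup (G ⊕ X) × G × G)) (g : G) {V : Type} (σ : G ⊕ X → V ≃ V) (v₀ : V)
    (hgd : Gd p W JW JS σ v₀) (N : Subgroup G) (γ : V → G)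
    (C : Set V) (hv₀ : v₀ ∈ C) (hC : ∀ e ∈ EE σ v₀ (ZZ g JS), e.1 ∈ C ↔ σ (Sum.inl e.2) e.1 ∈ C)
    (hγ : ∀ e ∈ EE σ v₀ (ZZ g JS), e.1 ∈ C → γ e.1 * e.2 * (γ (σ (Sum.inl e.2) e.1))⁻¹ ∈ N)
    (hcl : FreeGroup.of (Sum.inl g) ∈ Subgroup.closure
          ({z | ∃ u i, (u, i) ∈ JW ∧ z = u * W i * u⁻¹} ∪
            {z | ∃ u a b, (u, a, b) ∈ JS ∧ z = u * srel G X a b * u⁻¹})) :
    ∃ (h : γ v₀ * g * (γ v₀)⁻¹ ∈ N) (ι' X' : Type u) (w' : ι' → Coprod N (FreeGroup X')),
      Ind p w' ∧ Coprod.inl (⟨_, h⟩ : N) ∈ Subgroup.normalClosure (Set.range w') := by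
  classical
  let lam : V → G ⊕ X → Coprod N (FreeGroup (V × X)) := fun v => Sum.elim
    (fun a => if h : v ∈ C ∧ γ v * a * (γ (σ (Sum.inl a) v))⁻¹ ∈ N then Coprod.inl ⟨_, h.2⟩
      else 1)
    (fun j => Coprod.inr (FreeGroup.of (v, j)))
  let w' : {c : V × ι // ∃ u, (u, c.2) ∈ JW ∧ en σ u v₀ = c.1} → Coprod N (FreeGroup (V × X)) :=
    fun c => lb σ lam (W c.1.2) c.1.1
  have hex : ∀ z v, ex p (lb σ lam z v) = Multiplicative.ofAdd (rw' p σ z v) := by
    intro z v
    have h1 := lb_map σ (ex p) lam z v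
    rw [h1]
    have h2 : (fun v a => ex p (lam v a)) = (fun v a => Sum.elim
        (fun _ : G => (1 : Multiplicative (V × X →₀ ZMod p)))
        (fun j : X => Multiplicative.ofAdd (Finsupp.single (v, j) 1)) a) := by
      funext v a
      cases a with
      | inl a =>
        simp only [lam, Sum.elim_inl]
        split_ifs with h
        · exact WR.ex_inl p _
        · exact map_one _
      | inr j =>
        simp only [lam, Sum.elim_inr]
        exact WR.ex_of p _
    rw [h2]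
    rfl
  have hind : Ind p w' := by
    rw [Ind]
    simp only [w', hex, toAdd_ofAdd]
    exact hgd.ind
  let K := Subgroup.normalClosure (Set.range w')
  let q : Coprod N (FreeGroup (V × X)) →* (Coprod N (FreeGroup (V × X)) ⧸ K) := QuotientGroup.mk' K
  let mu : V → G ⊕ X → (Coprod N (FreeGroup (V × X)) ⧸ K) := fun v a => q (lam v a)
  have hmu : ∀ z v, lb σ mu z v = q (lb σ lam z v) := fun z v => (lb_map σ q lam z v).symm
  have hedge : ∀ e ∈ EE σ v₀ (ZZ g JS), e.1 ∈ C →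
      ∃ h : γ e.1 * e.2 * (γ (σ (Sum.inl e.2) e.1))⁻¹ ∈ N,
      lam e.1 (Sum.inl e.2) = Coprod.inl ⟨_, h⟩ := by
    intro e he hc
    refine ⟨hγ e he hc, ?_⟩
    simp only [lam, Sum.elim_inl]
    rw [dif_pos ⟨hc, hγ e he hc⟩]
  have hout : ∀ v a, v ∉ C → lam v (Sum.inl a) = 1 := by
    intro v a hv
    simp only [lam, Sum.elim_inl]
    rw [dif_neg (fun h => hv h.1)]
  let Fix : Subgroup (FreeGroup (G ⊕ X)) :=
    { carrier := {z | en σ z v₀ = v₀ ∧ lb σ mu z v₀ = 1}
      one_mem' := by simp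
      mul_mem' := by
        rintro a b ⟨ha, ha'⟩ ⟨hb, hb'⟩
        refine ⟨?_, ?_⟩
        · rw [en_mul, ha, hb]
        · rw [lb_mul, ha', ha, hb', mul_one]
      inv_mem' := by
        rintro a ⟨ha, ha'⟩
        have h1 : en σ a⁻¹ v₀ = v₀ := by
          have := en_inv_en σ a v₀
          rwa [ha] at this
        refine ⟨h1, ?_⟩
        rw [lb_inv, h1, ha', inv_one] }
  have hconj : ∀ u r, en σ r (en σ u v₀) = en σ u v₀ → lb σ mu r (en σ u v₀) = 1 →
      u * r * u⁻¹ ∈ Fix := by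
    intro u r h1 h2
    refine ⟨?_, ?_⟩
    · rw [en_mul, en_mul, h1, en_inv_en]
    · rw [lb_mul, lb_mul, h2, mul_one, en_mul, h1, lb_inv_en, mul_inv_cancel]
  have hle : Subgroup.closure
          ({z | ∃ u i, (u, i) ∈ JW ∧ z = u * W i * u⁻¹} ∪
            {z | ∃ u a b, (u, a, b) ∈ JS ∧ z = u * srel G X a b * u⁻¹}) ≤ Fix := by
    rw [Subgroup.closure_le]
    rintro z (⟨u, i, hu, rfl⟩ | ⟨u, a, b, hu, rfl⟩)
    · refine hconj u _ (hgd.cW u i hu) ?_
      rw [hmu]
      have h1 : lb σ lam (W i) (en σ u v₀) = w' ⟨(en σ u v₀, i), u, hu, rfl⟩ := rfl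
      rw [h1]
      exact (QuotientGroup.eq_one_iff _).mpr (Subgroup.subset_normalClosure ⟨_, rfl⟩)
    · have hc := hgd.cS u a b hu
      refine hconj u _ hc ?_
      have hCa := hC _ (edge1 (σ := σ) (v₀ := v₀) g hu)
      simp only at hCa
      by_cases hvC : en σ u v₀ ∈ C
      · obtain ⟨h1, h1'⟩ := hedge _ (edge1 (σ := σ) (v₀ := v₀) g hu) hvC
        obtain ⟨h2, h2'⟩ := hedge _ (edge2 (σ := σ) (v₀ := v₀) g hu) (hCa.mp hvC)
        obtain ⟨h3, h3'⟩ := hedge _ (edge3 hgd g hu) hvC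
        simp only at h1 h1' h2 h2' h3 h3'
        have hm := mv_srel σ a b (en σ u v₀) hc
        rw [hmu, lb_srel σ _ a b _ hc, h1', h2', h3', ← map_inv, ← map_mul, ← map_mul]
        have h4 : (⟨_, h1⟩ : N) * ⟨_, h2⟩ * (⟨_, h3⟩ : N)⁻¹ = 1 := by
          rw [mul_inv_eq_one]
          apply Subtype.ext
          simp only [Subgroup.coe_mul]
          rw [hm]
          group
        rw [h4, map_one, map_one]
      · rw [hmu, lb_srel σ _ a b _ hc, hout _ _ hvC, hout _ _ (fun h => hvC (hCa.mpr h)),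
          hout _ _ hvC]
        simp
  obtain ⟨hg1, hg2⟩ := hle hcl
  rw [en_of] at hg1
  have hmem : (v₀, g) ∈ EE σ v₀ (ZZ g JS) :=
    ⟨1, Or.inl (by simp), Or.inl (by simp), by simp⟩
  obtain ⟨h1, h1'⟩ := hedge _ hmem hv₀
  simp only at h1 h1'
  rw [hmu, lb_of, h1'] at hg2
  have h2 := (QuotientGroup.eq_one_iff _).mp hg2
  have h3 : γ v₀ * g * (γ v₀)⁻¹ ∈ N := by
    have := h1
    rwa [hg1] at this
  refine ⟨h3, _, _, w', hind, ?_⟩
  have h4 : (⟨_, h3⟩ : N) = ⟨_, h1⟩ := by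
    apply Subtype.ext
    simp only
    rw [hg1]
  rw [h4]
  exact h2

/-- **Localization.** An element of `G` that becomes trivial lies in a finitely generated subgroup
without quotient of order `p`, over which it becomes trivial for a `p`-nonsingular system. -/
theorem localize (p : ℕ) [Fact p.Prime] (G : Type u) [Group G] {m n : ℕ}
    (w : Fin m → Coprod G (FreeGroup (Fin n))) (hw : NonsingP p w) (g : G)
    (hg : Coprod.inl g ∈ Subgroup.normalClosure (Set.range w)) :
    ∃ (K : Subgroup G) (hgK : g ∈ K), K.FG ∧ ¬ OntoP p K ∧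
      ∃ (m' n' : ℕ) (w' : Fin m' → Coprod K (FreeGroup (Fin n'))), NonsingP p w' ∧
        Coprod.inl (⟨g, hgK⟩ : K) ∈ Subgroup.normalClosure (Set.range w') := by
  classical
  have hW := EXT.ind_up p w hw
  have hg' : Coprod.inl g ∈ Subgroup.normalClosure (Set.range (EXT.up w)) := by
    have hle : Subgroup.normalClosure (Set.range w) ≤
        (Subgroup.normalClosure (Set.range (EXT.up w))).comap
          (EXT.ren (ULift.up : Fin n → ULift.{u} (Fin n))) := by
      refine Subgroup.normalClosure_le_normal ?_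
      rintro _ ⟨k, rfl⟩
      exact Subgroup.subset_normalClosure ⟨ULift.up k, rfl⟩
    have h1 := hle hg
    rw [Subgroup.mem_comap] at h1
    have h2 : EXT.ren (ULift.up : Fin n → ULift.{u} (Fin n)) (Coprod.inl g) = Coprod.inl g := by
      simp [EXT.ren]
    rwa [h2] at h1
  obtain ⟨W, hWw, hwit⟩ := vk G (ULift.{u} (Fin n)) (ULift.{u} (Fin m)) (EXT.up w)
  obtain ⟨JW, JS, hJW, hJS, hcl⟩ := hwit g hg'
  obtain ⟨V, σ, v₀, hgd, hmax⟩ := exists_max p W JW JS hJW (ZZ g JS) (ZZ_finite g hJS)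
    (onePoint p G w hW W hWw JW JS)
  obtain ⟨γ, A, C, hv₀, hfg', hψ, hC, hA⟩ := gauge2 p (fun a => σ (Sum.inl a)) (fun a : G => a)
    (EE σ v₀ (ZZ g JS)) (EE_finite σ v₀ (ZZ_finite g hJS)) v₀ (by
      intro γ A ψ C hC hA
      exact gaugeHyp2 p W JW JS g σ v₀ hgd hmax γ A ψ C hC hA)
  obtain ⟨hgA, ι', X', w', hind, hmem⟩ := last3 p W JW JS g σ v₀ hgd A γ C hv₀ hC hA hcl
  obtain ⟨m', n', w'', hns, hmem''⟩ := inf_elem p A ι' X' w' hind _ hmem
  let cj : G →* G := (MulAut.conj (γ v₀)⁻¹).toMonoidHom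
  let K : Subgroup G := A.map cj
  let f : A →* K := cj.subgroupMap A
  have hgK : g ∈ K := by
    refine ⟨_, hgA, ?_⟩
    simp [cj, mul_assoc]
  have hfg : f ⟨_, hgA⟩ = ⟨g, hgK⟩ := by
    apply Subtype.ext
    change cj (γ v₀ * g * (γ v₀)⁻¹) = g
    simp [cj, mul_assoc]
  refine ⟨K, hgK, ?_, ?_, m', n', fun k => FINP.chg (Fin n') f (w'' k),
    CLOS.nonsingP_chg f w'' hns, ?_⟩
  · obtain ⟨S, hS⟩ := hfg'
    exact (Subgroup.fg_iff _).mpr ⟨cj '' (S : Set G), by
      rw [← MonoidHom.map_closure, hS], S.finite_toSet.image _⟩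
  · intro h
    obtain ⟨ψ, hψ1⟩ := MAIN.ne_one_of_ontoP p h
    apply hψ1
    have h1 := hψ (ψ.comp f)
    ext x
    obtain ⟨y, rfl⟩ := cj.subgroupMap_surjective A x
    exact DFunLike.congr_fun h1 y
  · have h1 : Subgroup.normalClosure (Set.range w'') ≤ (Subgroup.normalClosure
        (Set.range (fun k => FINP.chg (Fin n') f (w'' k)))).comap (FINP.chg (Fin n') f) := by
      refine Subgroup.normalClosure_le_normal ?_
      rintro _ ⟨k, rfl⟩
      exact Subgroup.subset_normalClosure ⟨k, rfl⟩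
    have h2 := h1 hmem''
    rw [Subgroup.mem_comap] at h2
    have h3 : FINP.chg (Fin n') f (Coprod.inl ⟨_, hgA⟩) = Coprod.inl (⟨g, hgK⟩ : K) := by
      rw [FINP.chg, WR.ev_inl, MonoidHom.comp_apply, hfg]
    rwa [h3] at h2

end TOW

end Vale.Agent.P174
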