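import Vale.Agent.P174.Tow4
import Vale.Agent.P174.Big
import Vale.Agent.P174.Abel

/-!
# P174: main theorems
-/

namespace Vale.Agent.P174

open Monoid

universe u v w

namespace MAIN

lemma solvable_of_chg {A B : Type u} [Group A] [Group B] (f : A →* B)
    (hf : Function.Injective f) {m n : ℕ} (w : Fin m → Coprod A (FreeGroup (Fin n)))
    (h : Solvable (fun k => FINP.chg (Fin n) f (w k))) : Solvable w := by
  obtain ⟨H, _, i, h, hi, hh⟩ := h
  refine ⟨H, inferInstance, i.comp f, h, hi.comp hf, fun k => ?_⟩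
  have := hh k
  rwa [FINP.ev_chg] at this

lemma expo_chg {A B : Type u} [Group A] [Group B] (f : A →* B) {X : Type v}
    (z : Coprod A (FreeGroup X)) : expo (FINP.chg X f z) = expo z := by
  unfold expo
  rw [FINP.ev_chg]
  rfl

/-- `Q1` passes to subgroups -/
lemma q1_of_injective {A B : Type u} [Group A] [Group B] (f : A →* B)
    (hf : Function.Injective f) (hB : Q1 B) : Q1 A := by
  intro m n w hw
  refine solvable_of_chg f hf w (hB m n _ ?_)
  unfold Nonsing
  simp only [expo_chg]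
  exact hw

lemma nonsing_of_nonsingP (p : ℕ) [Fact p.Prime] {G : Type u} [Group G] {m n : ℕ}
    (w : Fin m → Coprod G (FreeGroup (Fin n))) (hw : NonsingP p w) : Nonsing w := by
  unfold Nonsing
  rw [← LinearIndependent.iff_fractionRing ℤ ℚ, Fintype.linearIndependent_iff]
  intro c hc
  refine AbelAux.indep_int p (fun k j => expo (w k) j) hw c fun j => ?_
  have h1 := congrFun hc j
  rw [Finset.sum_apply, Pi.zero_apply] at h1
  have h2 : ((∑ k, c k * expo (w k) j : ℤ) : ℚ) = 0 := by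
    push_cast
    rw [← h1]
    refine Finset.sum_congr rfl fun k _ => ?_
    simp [zsmul_eq_mul]
  exact_mod_cast h2

lemma solvP_of_q1 (p : ℕ) [Fact p.Prime] {G : Type u} [Group G] (h : Q1 G) : SolvP p G :=
  fun m n w hw => h m n w (nonsing_of_nonsingP p w hw)

lemma q1_of_solvP {G : Type u} [Group G] (h : ∀ B : ℕ, ∃ p : ℕ, B ≤ p ∧ p.Prime ∧ SolvP p G) :
    Q1 G := by
  intro m n w hw
  obtain ⟨p₀, hp₀⟩ := big m n (fun k j => expo (w k) j) hw
  obtain ⟨p, hp1, hp2, hp3⟩ := h p₀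
  exact hp3 m n w (hp₀ p hp2 hp1)

lemma cp_of_ontoZ (p : ℕ) [hp : Fact p.Prime] {K : Type u} [Group K] (h : OntoZ K) :
    ∃ ψ : K →* Multiplicative (ZMod p), ψ ≠ 1 := by
  obtain ⟨ψ, hψ⟩ := h
  obtain ⟨x, hx⟩ := hψ (Multiplicative.ofAdd 1)
  refine ⟨(AddMonoidHom.toMultiplicative (Int.castAddHom (ZMod p))).comp ψ, fun h => ?_⟩
  have h1 := DFunLike.congr_fun h x
  rw [MonoidHom.comp_apply, hx, MonoidHom.one_apply] at h1
  have h2 := congrArg Multiplicative.toAdd h1
  have h3 : ((1 : ℤ) : ZMod p) = 0 := h2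
  rw [Int.cast_one] at h3
  exact one_ne_zero h3

/-- abelian groups -/
lemma q1_abelian {A : Type u} [Group A] (h : ∀ a b : A, a * b = b * a) : Q1 A := by
  refine q1_of_solvP fun B => ?_
  obtain ⟨p, hp1, hp2⟩ := Nat.exists_infinite_primes B
  have : Fact p.Prime := ⟨hp2⟩
  exact ⟨p, hp1, hp2, abel p A h⟩

/-- the local criterion for Howie's conjecture -/
theorem q1_local {G : Type u} [Group G] (h : ∀ K : Subgroup G, K.FG → OntoZ K ∨ Q1 K) : Q1 G := by
  refine q1_of_solvP fun B => ?_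
  obtain ⟨p, hp1, hp2⟩ := Nat.exists_infinite_primes B
  have : Fact p.Prime := ⟨hp2⟩
  refine ⟨p, hp1, hp2, tow2 p G fun K hK => ?_⟩
  rcases h K hK with h1 | h1
  · exact Or.inr (cp_of_ontoZ p h1)
  · exact Or.inl (solvP_of_q1 p h1)

/-- image in the quotient -/
lemma le_or_image {G : Type u} [Group G] (N : Subgroup G) [N.Normal] (K : Subgroup G)
    (hK : K.FG) : K ≤ N ∨ ∃ L : Subgroup (G ⧸ N), L.FG ∧ L ≠ ⊥ ∧
      ∃ f : K →* L, Function.Surjective f := by
  by_cases h : K ≤ N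
  · exact Or.inl h
  · refine Or.inr ⟨K.map (QuotientGroup.mk' N), ?_, ?_, (QuotientGroup.mk' N).subgroupMap K,
      (QuotientGroup.mk' N).subgroupMap_surjective K⟩
    · obtain ⟨S, hS⟩ := hK
      exact (Subgroup.fg_iff _).mpr ⟨(QuotientGroup.mk' N) '' (S : Set G), by
        rw [← hS, MonoidHom.map_closure], S.finite_toSet.image _⟩
    · intro hbot
      apply h
      intro x hx
      have h1 : QuotientGroup.mk' N x ∈ K.map (QuotientGroup.mk' N) := ⟨x, hx, rfl⟩
      rw [hbot, Subgroup.mem_bot] at h1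
      exact (QuotientGroup.eq_one_iff x).mp h1

/-- extensions with locally indicable quotient -/
theorem q1_ext {G : Type u} [Group G] (N : Subgroup G) [N.Normal] (hN : Q1 N)
    (hQ : LocInd (G ⧸ N)) : Q1 G := by
  refine q1_local fun K hK => ?_
  rcases le_or_image N K hK with h | ⟨L, hL, hL', f, hf⟩
  · exact Or.inr (q1_of_injective (Subgroup.inclusion h) (Subgroup.inclusion_injective h) hN)
  · obtain ⟨ψ, hψ⟩ := hQ L hL hL'
    exact Or.inl ⟨ψ.comp f, hψ.comp hf⟩

lemma ne_one_of_ontoP (p : ℕ) [hp : Fact p.Prime] {K : Type u} [Group K] (h : OntoP p K) :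
    ∃ ψ : K →* Multiplicative (ZMod p), ψ ≠ 1 := by
  obtain ⟨ψ, hψ⟩ := h
  refine ⟨ψ, fun h => ?_⟩
  obtain ⟨x, hx⟩ := hψ (Multiplicative.ofAdd 1)
  rw [h, MonoidHom.one_apply] at hx
  exact one_ne_zero (congrArg Multiplicative.toAdd hx).symm

/-- the local criterion modulo `p` -/
theorem solvP_local (p : ℕ) [Fact p.Prime] {G : Type u} [Group G]
    (h : ∀ K : Subgroup G, K.FG → OntoP p K ∨ SolvP p K) : SolvP p G :=
  tow2 p G fun K hK => (h K hK).symm.imp id (ne_one_of_ontoP p)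

/-- extensions with locally `p`-indicable quotient -/
theorem solvP_ext (p : ℕ) [Fact p.Prime] {G : Type u} [Group G] (N : Subgroup G) [N.Normal]
    (hN : SolvP p N) (hQ : LocIndP p (G ⧸ N)) : SolvP p G := by
  refine solvP_local p fun K hK => ?_
  rcases le_or_image N K hK with h | ⟨L, hL, hL', f, hf⟩
  · exact Or.inr (CLOS.solvP_of_injective (Subgroup.inclusion h)
      (Subgroup.inclusion_injective h) hN)
  · obtain ⟨ψ, hψ⟩ := hQ L hL hL'
    exact Or.inl ⟨ψ.comp f, hψ.comp hf⟩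

end MAIN

end Vale.Agent.P174
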