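import Vale.Agent.P174.Walk
import Vale.Agent.P174.Lin

/-!
# P174: refinement of a good structure
-/

namespace Vale.Agent.P174

open Monoid WALK

universe u v w

namespace REF

variable {p : ℕ} {V : Type} {Λ : Type u} (σ : Λ → V ≃ V) (φ : V → Λ → ZMod p)

lemma en_rf (z : FreeGroup Λ) : ∀ x : V × ZMod p, en (rf σ φ) z x =
    (en σ z x.1, x.2 + Multiplicative.toAdd (lb σ (fun v a => Multiplicative.ofAdd (φ v a)) z x.1)) := by
  induction z using FreeGroup.induction_on with
  | C1 => intro x; simp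
  | of a => intro x; simp [rf]
  | inv_of a ih =>
    intro x
    have h1 := ih (en σ (FreeGroup.of a)⁻¹ x.1, x.2 - Multiplicative.toAdd
      (lb σ (fun v a => Multiplicative.ofAdd (φ v a)) (FreeGroup.of a)
        (en σ (FreeGroup.of a)⁻¹ x.1)))
    simp only [sub_add_cancel, en_en_inv] at h1
    rw [show (x.1, x.2) = x from rfl] at h1
    have h2 := en_inv_en (rf σ φ) (FreeGroup.of a) (en σ (FreeGroup.of a)⁻¹ x.1,
      x.2 - Multiplicative.toAdd (lb σ (fun v a => Multiplicative.ofAdd (φ v a)) (FreeGroup.of a)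
        (en σ (FreeGroup.of a)⁻¹ x.1)))
    rw [h1] at h2
    rw [h2, lb_inv, toAdd_inv, sub_eq_add_neg]
  | mul a b iha ihb =>
    intro x
    rw [en_mul, ihb, iha]
    simp only
    rw [en_mul, lb_mul, toAdd_mul, add_assoc]

/-- translation -/
lemma rw_transl {G X : Type u} (σ : G ⊕ X → V ≃ V) (φ : V → G ⊕ X → ZMod p)
    (z : FreeGroup (G ⊕ X)) (v : V) (y t : ZMod p) :
    (rw' p (rf σ φ) z (v, y)).mapDomain
      (fun a : (V × ZMod p) × X => ((a.1.1, a.1.2 + t), a.2)) = rw' p (rf σ φ) z (v, y + t) := by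
  have h := (push (rf σ φ) (rf σ φ) (fun v a => Sum.elim
    (fun _ : G => (1 : Multiplicative ((V × ZMod p) × X →₀ ZMod p)))
    (fun j : X => Multiplicative.ofAdd (Finsupp.single (v, j) 1)) a)
    (fun v a => Sum.elim
    (fun _ : G => (1 : Multiplicative ((V × ZMod p) × X →₀ ZMod p)))
    (fun j : X => Multiplicative.ofAdd (Finsupp.single (v, j) 1)) a)
    (fun x : V × ZMod p => (x.1, x.2 + t))
    (AddMonoidHom.toMultiplicative (Finsupp.mapDomain.addMonoidHom
      (fun a : (V × ZMod p) × X => ((a.1.1, a.1.2 + t), a.2))))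
    (by intro a x; simp [rf, add_right_comm])
    (by
      intro a x
      cases a with
      | inl a => simp
      | inr j => simp) z (v, y)).2
  exact congrArg Multiplicative.toAdd h

/-- projection -/
lemma rw_proj {G X : Type u} (σ : G ⊕ X → V ≃ V) (φ : V → G ⊕ X → ZMod p)
    (z : FreeGroup (G ⊕ X)) (v : V) (y : ZMod p) :
    (rw' p (rf σ φ) z (v, y)).mapDomain
      (fun a : (V × ZMod p) × X => (a.1.1, a.2)) = rw' p σ z v := by
  have h := (push σ (rf σ φ) (fun v a => Sum.elim
    (fun _ : G => (1 : Multiplicative (V × X →₀ ZMod p)))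
    (fun j : X => Multiplicative.ofAdd (Finsupp.single (v, j) 1)) a)
    (fun v a => Sum.elim
    (fun _ : G => (1 : Multiplicative ((V × ZMod p) × X →₀ ZMod p)))
    (fun j : X => Multiplicative.ofAdd (Finsupp.single (v, j) 1)) a)
    (fun x : V × ZMod p => x.1)
    (AddMonoidHom.toMultiplicative (Finsupp.mapDomain.addMonoidHom
      (fun a : (V × ZMod p) × X => (a.1.1, a.2))))
    (by intro a x; simp [rf])
    (by
      intro a x
      cases a with
      | inl a => simp
      | inr j => simp) z (v, y)).2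
  exact congrArg Multiplicative.toAdd h

end REF

open REF in
theorem ref : S_REF.{u} := by
  intro p hp G _ X ι W JW JS V σ v₀ hJW hgd φ hW hS
  have hen : ∀ z, en (rf σ φ) z (v₀, 0) = (en σ z v₀,
      Multiplicative.toAdd (lb σ (fun v a => Multiplicative.ofAdd (φ v a)) z v₀)) := by
    intro z
    rw [en_rf]
    simp
  refine ⟨⟨?_, ?_, ?_⟩, hen⟩
  · intro u i hu
    rw [hen, en_rf]
    simp only
    rw [hW u i hu, hgd.cW u i hu]
    simp
  · intro u a b hu
    rw [hen, en_rf]
    simp only
    rw [hS u a b hu, hgd.cS u a b hu]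
    simp
  · -- independence
    let I := {c : V × ι // ∃ u, (u, c.2) ∈ JW ∧ en σ u v₀ = c.1}
    have hI : Finite I := by
      have : ({c : V × ι | ∃ u, (u, c.2) ∈ JW ∧ en σ u v₀ = c.1}).Finite := by
        refine (hJW.image (fun k => (en σ k.1 v₀, k.2))).subset ?_
        rintro ⟨v, i⟩ ⟨u, hu, hv⟩
        exact ⟨(u, i), hu, by simp only at hv; simp [hv]⟩
      exact this
    let P := Multiplicative (ZMod p)
    have hPf : Finite P := inferInstanceAs (Finite (ZMod p))
    have hP : IsPGroup p P := by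
      refine IsPGroup.of_card (n := 1) ?_
      rw [pow_one]
      exact Nat.card_zmod p
    let E : (V × ZMod p) × X → P × (V × X) := fun a => (Multiplicative.ofAdd a.1.2, (a.1.1, a.2))
    let D : I → (P × (V × X) →₀ ZMod p) := fun c =>
      (rw' p (rf σ φ) (W c.1.2) (c.1.1, 0)).mapDomain E
    have hD : LinearIndependent (ZMod p) (fun c => (D c).mapDomain Prod.snd) := by
      have he : (fun c => (D c).mapDomain Prod.snd) = fun c : I => rw' p σ (W c.1.2) c.1.1 := by
        funext c
        simp only [D]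
        rw [← Finsupp.mapDomain_comp]
        exact rw_proj σ φ (W c.1.2) c.1.1 0
      rw [he]
      exact hgd.ind
    have hL := lin p P hP I (V × X) D hD
    refine LinearIndependent.of_comp (Finsupp.lmapDomain (ZMod p) (ZMod p) E) ?_
    let J := {c : (V × ZMod p) × ι // ∃ u, (u, c.2) ∈ JW ∧ en (rf σ φ) u (v₀, 0) = c.1}
    let g : J → I × P := fun c => (⟨(c.1.1.1, c.1.2), by
      obtain ⟨u, hu, hv⟩ := c.2
      rw [hen] at hv
      exact ⟨u, hu, congrArg Prod.fst hv⟩⟩, Multiplicative.ofAdd c.1.1.2)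
    have hg : Function.Injective g := by
      rintro ⟨⟨⟨v, y⟩, i⟩, hc⟩ ⟨⟨⟨v', y'⟩, i'⟩, hc'⟩ h
      have h1 : v = v' := congrArg (fun k : I × P => k.1.1.1) h
      have h2 : i = i' := congrArg (fun k : I × P => k.1.1.2) h
      have h3 : y = y' := congrArg (fun k : I × P => Multiplicative.toAdd k.2) h
      subst h1; subst h2; subst h3
      rfl
    have hL2 := hL.comp g hg
    have he2 : (⇑(Finsupp.lmapDomain (ZMod p) (ZMod p) E) ∘
        fun c : J => rw' p (rf σ φ) (W c.1.2) c.1.1) =
        ((fun iy : I × P => (D iy.1).mapDomain (fun aj : P × (V × X) => (aj.1 * iy.2, aj.2))) ∘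
          g) := by
      funext c
      simp only [Function.comp_apply, Finsupp.lmapDomain_apply, D, g]
      have h1 := rw_transl σ φ (W c.1.2) c.1.1.1 0 c.1.1.2
      rw [zero_add] at h1
      rw [show c.1.1 = (c.1.1.1, c.1.1.2) from rfl, ← h1]
      rw [← Finsupp.mapDomain_comp, ← Finsupp.mapDomain_comp]
      rfl
    rw [he2]
    exact hL2

end Vale.Agent.P174
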