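import Vale.Agent.P174.Defs

/-!
# P174: separation by one finite `p`-quotient
-/

namespace Vale.Agent.P174

universe u

namespace SEP

lemma pi_isPGroup {p : ℕ} {ι : Type*} [Finite ι] {P : ι → Type*} [∀ i, Group (P i)]
    (h : ∀ i, IsPGroup p (P i)) : IsPGroup p (∀ i, P i) := by
  have := Fintype.ofFinite ι
  intro g
  choose k hk using fun i => h i (g i)
  refine ⟨∑ i, k i, ?_⟩
  funext i
  rw [Pi.pow_apply, Pi.one_apply]
  obtain ⟨c, hc⟩ : p ^ k i ∣ p ^ ∑ i, k i :=
    pow_dvd_pow p (Finset.single_le_sum (fun _ _ => Nat.zero_le _) (Finset.mem_univ i))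
  rw [hc, pow_mul, hk, one_pow]

lemma exists_hom {p : ℕ} [hp : Fact p.Prime] {G : Type u} [Group G] (hG : ResP p G) (g : G)
    (hg : g ≠ 1) : ∃ (P : Type u) (_ : Group P) (_ : Finite P) (f : G →* P), IsPGroup p P ∧
      f g ≠ 1 := by
  obtain ⟨K, hK, hgK, k, hk⟩ := hG g hg
  have hfin : Finite (G ⧸ K) := by
    have : K.index ≠ 0 := by
      rw [hk]
      exact pow_ne_zero _ hp.out.ne_zero
    have h2 : K.FiniteIndex := ⟨this⟩
    infer_instance
  refine ⟨G ⧸ K, inferInstance, hfin, QuotientGroup.mk' K, ?_, ?_⟩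
  · exact IsPGroup.of_card (n := k) hk
  · intro h
    exact hgK ((QuotientGroup.eq_one_iff g).mp h)

end SEP

open SEP in
theorem sep : S_SEP.{u} := by
  intro p hp G _ hG S
  classical
  let I : Type u := {k : G × G // k ∈ S ×ˢ S ∧ k.1 ≠ k.2}
  have hI : Finite I := Set.Finite.subset (Finset.finite_toSet (S ×ˢ S)) (fun k hk => hk.1)
  have hne : ∀ k : I, k.1.1 * k.1.2⁻¹ ≠ 1 := fun k h => k.2.2 (mul_inv_eq_one.mp h)
  choose P hPg hPf f hP hf using fun k : I => exists_hom hG _ (hne k)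
  refine ⟨∀ k, P k, inferInstance, inferInstance, MonoidHom.pi f, pi_isPGroup hP, ?_⟩
  intro a ha b hb hab
  by_contra hn
  let k : I := ⟨(a, b), Finset.mem_product.mpr ⟨Finset.mem_coe.mp ha, Finset.mem_coe.mp hb⟩, hn⟩
  apply hf k
  have h1 := congrFun hab k
  change f k a = f k b at h1
  rw [map_mul, map_inv]
  exact mul_inv_eq_one.mpr h1

end Vale.Agent.P174
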