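import Vale.Agent.P174.Clos

/-!
# P174: the tower argument, definitions and module statements
-/

namespace Vale.Agent.P174

open Monoid

universe u v w

/-- every nontrivial finitely generated subgroup has a nontrivial homomorphism to `C_p` -/
def LocIndP' (p : ℕ) (Q : Type u) [Group Q] : Prop :=
  ∀ K : Subgroup Q, K.FG → K ≠ ⊥ → ∃ ψ : K →* Multiplicative (ZMod p), ψ ≠ 1

/-- permutational wreath product, moving from left to right -/
@[ext] structure PW (H : Type u) (V : Type v) where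
  /-- labels -/
  val : V → H
  /-- motion -/
  mv : V ≃ V

namespace PW

variable {H : Type u} [Group H] {V : Type v}

instance : Mul (PW H V) := ⟨fun a b => ⟨fun v => a.val v * b.val (a.mv v), a.mv.trans b.mv⟩⟩

instance : One (PW H V) := ⟨⟨fun _ => 1, Equiv.refl V⟩⟩

instance : Inv (PW H V) := ⟨fun a => ⟨fun v => (a.val (a.mv.symm v))⁻¹, a.mv.symm⟩⟩

@[simp] lemma mul_val (a b : PW H V) (v : V) : (a * b).val v = a.val v * b.val (a.mv v) := rfl
@[simp] lemma mul_mv (a b : PW H V) (v : V) : (a * b).mv v = b.mv (a.mv v) := rfl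
@[simp] lemma one_val (v : V) : (1 : PW H V).val v = 1 := rfl
@[simp] lemma one_mv (v : V) : (1 : PW H V).mv v = v := rfl
@[simp] lemma inv_val (a : PW H V) (v : V) : (a⁻¹).val v = (a.val (a.mv.symm v))⁻¹ := rfl
@[simp] lemma inv_mv (a : PW H V) (v : V) : (a⁻¹).mv v = a.mv.symm v := rfl

instance : Group (PW H V) where
  mul_assoc a b c := by
    refine PW.ext ?_ (Equiv.ext ?_)
    · funext v; simp [mul_assoc]
    · intro v; simp
  one_mul a := by
    refine PW.ext ?_ (Equiv.ext ?_)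
    · funext v; simp
    · intro v; simp
  mul_one a := by
    refine PW.ext ?_ (Equiv.ext ?_)
    · funext v; simp
    · intro v; simp
  inv_mul_cancel a := by
    refine PW.ext ?_ (Equiv.ext ?_)
    · funext v; simp
    · intro v; simp

end PW

/-- reading a word: every letter moves the points of `V` and has a label at each point -/
def rd {H : Type u} [Group H] {V : Type v} {Λ : Type w} (σ : Λ → V ≃ V) (l : V → Λ → H) :
    FreeGroup Λ →* PW H V :=
  FreeGroup.lift (fun a => ⟨fun v => l v a, σ a⟩)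

/-- the end point of the walk from `v` -/
def en {V : Type v} {Λ : Type w} (σ : Λ → V ≃ V) (z : FreeGroup Λ) (v : V) : V :=
  (rd σ (fun _ _ => (1 : Multiplicative ℤ)) z).mv v

/-- the label of the walk from `v` -/
def lb {H : Type u} [Group H] {V : Type v} {Λ : Type w} (σ : Λ → V ≃ V) (l : V → Λ → H)
    (z : FreeGroup Λ) (v : V) : H :=
  (rd σ l z).val v

/-- exponent vector of the walk from `v` -/
noncomputable def rw' (p : ℕ) {G : Type u} {X : Type u} {V : Type} (σ : G ⊕ X → V ≃ V)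
    (z : FreeGroup (G ⊕ X)) (v : V) : V × X →₀ ZMod p :=
  Multiplicative.toAdd (lb σ (fun v a => Sum.elim
    (fun _ : G => (1 : Multiplicative (V × X →₀ ZMod p)))
    (fun j : X => Multiplicative.ofAdd (Finsupp.single (v, j) 1)) a) z v)

/-- the multiplication relators -/
def srel (G : Type u) [Group G] (X : Type u) (a b : G) : FreeGroup (G ⊕ X) :=
  FreeGroup.of (Sum.inl a) * FreeGroup.of (Sum.inl b) * (FreeGroup.of (Sum.inl (a * b)))⁻¹

/-- a good structure: `W i` are the relators, `JW`, `JS` the cells -/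
structure Gd (p : ℕ) {G : Type u} [Group G] {X ι : Type u} (W : ι → FreeGroup (G ⊕ X))
    (JW : Set (FreeGroup (G ⊕ X) × ι)) (JS : Set (FreeGroup (G ⊕ X) × G × G))
    {V : Type} (σ : G ⊕ X → V ≃ V) (v₀ : V) : Prop where
  cW : ∀ u i, (u, i) ∈ JW → en σ (W i) (en σ u v₀) = en σ u v₀
  cS : ∀ u a b, (u, a, b) ∈ JS → en σ (srel G X a b) (en σ u v₀) = en σ u v₀
  ind : LinearIndependent (ZMod p)
    (fun c : {c : V × ι // ∃ u, (u, c.2) ∈ JW ∧ en σ u v₀ = c.1} => rw' p σ (W c.1.2) c.1.1)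

/-- the refined structure -/
def rf {p : ℕ} {V : Type} {Λ : Type u} (σ : Λ → V ≃ V) (φ : V → Λ → ZMod p) (a : Λ) :
    V × ZMod p ≃ V × ZMod p where
  toFun x := (σ a x.1, x.2 + φ x.1 a)
  invFun x := ((σ a).symm x.1, x.2 - φ ((σ a).symm x.1) a)
  left_inv x := by simp
  right_inv x := by simp

/-- VK: finite witnesses -/
def S_VK : Prop := ∀ (G : Type u) [Group G] (X ι : Type u) (w : ι → Coprod G (FreeGroup X)),
  ∃ W : ι → FreeGroup (G ⊕ X),
    (∀ i, FreeGroup.lift (Sum.elim (fun a => (Coprod.inl a : Coprod G (FreeGroup X)))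
      (fun j => Coprod.inr (FreeGroup.of j))) (W i) = w i) ∧
    ∀ g : G, Coprod.inl g ∈ Subgroup.normalClosure (Set.range w) →
      ∃ (JW : Set (FreeGroup (G ⊕ X) × ι)) (JS : Set (FreeGroup (G ⊕ X) × G × G)),
        JW.Finite ∧ JS.Finite ∧ FreeGroup.of (Sum.inl g) ∈ Subgroup.closure
          ({z | ∃ u i, (u, i) ∈ JW ∧ z = u * W i * u⁻¹} ∪
            {z | ∃ u a b, (u, a, b) ∈ JS ∧ z = u * srel G X a b * u⁻¹})

/-- REF: refinement of a good structure -/
def S_REF : Prop := ∀ (p : ℕ) [Fact p.Prime] (G : Type u) [Group G] (X ι : Type u)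
  (W : ι → FreeGroup (G ⊕ X)) (JW : Set (FreeGroup (G ⊕ X) × ι))
  (JS : Set (FreeGroup (G ⊕ X) × G × G)) (V : Type) (σ : G ⊕ X → V ≃ V) (v₀ : V),
  JW.Finite → Gd p W JW JS σ v₀ → ∀ φ : V → G ⊕ X → ZMod p,
  (∀ u i, (u, i) ∈ JW → lb σ (fun v a => Multiplicative.ofAdd (φ v a)) (W i) (en σ u v₀) = 1) →
  (∀ u a b, (u, a, b) ∈ JS →
    lb σ (fun v a => Multiplicative.ofAdd (φ v a)) (srel G X a b) (en σ u v₀) = 1) →
  Gd p W JW JS (rf σ φ) (v₀, 0) ∧
  ∀ z, en (rf σ φ) z (v₀, 0) =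
    (en σ z v₀, Multiplicative.toAdd (lb σ (fun v a => Multiplicative.ofAdd (φ v a)) z v₀))

/-- GAUGE: `EC` is a finite set of edges labelled by elements of `Q`, `τ v a` the end of the edge.
If every homomorphism of the group generated by the labels gives a coboundary then, after a change
of gauge, all labels are trivial. -/
def S_GAUGE : Prop := ∀ (p : ℕ) [Fact p.Prime] (Q : Type u) [Group Q], LocIndP' p Q →
  ∀ (V : Type) (Λ : Type u) (τ : Λ → V ≃ V) (l : Λ → Q) (EC : Set (V × Λ)), EC.Finite →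
  (∀ (γ : V → Q) (A : Subgroup Q) (ψ : A →* Multiplicative (ZMod p)),
    (∀ e ∈ EC, γ e.1 * l e.2 * (γ (τ e.2 e.1))⁻¹ ∈ A) →
    ∃ f : V → ZMod p, ∀ e ∈ EC, ∀ h : γ e.1 * l e.2 * (γ (τ e.2 e.1))⁻¹ ∈ A,
      Multiplicative.toAdd (ψ ⟨_, h⟩) = f (τ e.2 e.1) - f e.1) →
  ∃ γ : V → Q, ∀ e ∈ EC, γ e.1 * l e.2 * (γ (τ e.2 e.1))⁻¹ = 1

/-- TOW: the extension theorem for locally `p`-indicable quotients -/
def S_TOW : Prop := ∀ (p : ℕ) [Fact p.Prime] (G : Type u) [Group G] (N : Subgroup G) [N.Normal],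
  SolvP p N → LocIndP' p (G ⧸ N) → SolvP p G

end Vale.Agent.P174
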