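import Vale.Agent.P174.Ref
import Vale.Agent.P174.Elem
import Vale.Agent.P174.Inf

/-!
# P174: the tower argument
-/

namespace Vale.Agent.P174

open Monoid WALK

universe u v w

namespace TOW

section labels

variable {H : Type u} {V : Type v} {Λ : Type w}

lemma lb_split [CommGroup H] (σ : Λ → V ≃ V) (l l₁ l₂ : V → Λ → H)
    (h : ∀ v a, l v a = l₁ v a * l₂ v a) (z : FreeGroup Λ) :
    ∀ v, lb σ l z v = lb σ l₁ z v * lb σ l₂ z v := by
  induction z using FreeGroup.induction_on with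
  | C1 => intro v; simp
  | of a => intro v; simp [h]
  | inv_of a ih => intro v; rw [lb_inv, lb_inv σ l₁, lb_inv σ l₂, ih, mul_inv]
  | mul a b iha ihb =>
    intro v
    rw [lb_mul, lb_mul, lb_mul, iha, ihb]
    exact mul_mul_mul_comm _ _ _ _

lemma lb_map [Group H] {H' : Type*} [Group H'] (σ : Λ → V ≃ V) (f : H' →* H) (l' : V → Λ → H')
    (z : FreeGroup Λ) (v : V) : f (lb σ l' z v) = lb σ (fun v a => f (l' v a)) z v :=
  (push σ σ (fun v a => f (l' v a)) l' id f (fun _ _ => rfl) (fun _ _ => rfl) z v).2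

end labels

/-- the finite set of prefixes -/
def ZZ {G : Type u} [Group G] {X : Type u} (g : G) (JS : Set (FreeGroup (G ⊕ X) × G × G)) :
    Set (FreeGroup (G ⊕ X)) :=
  {1, FreeGroup.of (Sum.inl g)} ∪ ((fun k => k.1) '' JS ∪
    ((fun k => k.1 * FreeGroup.of (Sum.inl k.2.1)) '' JS ∪
    ((fun k => k.1 * FreeGroup.of (Sum.inl k.2.1) * FreeGroup.of (Sum.inl k.2.2)) '' JS ∪
    (fun k => k.1 * srel G X k.2.1 k.2.2) '' JS)))

lemma ZZ_finite {G : Type u} [Group G] {X : Type u} (g : G)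
    {JS : Set (FreeGroup (G ⊕ X) × G × G)} (h : JS.Finite) : (ZZ g JS).Finite := by
  unfold ZZ
  refine Set.Finite.union (by simp) (Set.Finite.union (h.image _) (Set.Finite.union (h.image _)
    (Set.Finite.union (h.image _) (h.image _))))

/-- a maximal good structure -/
lemma exists_max (p : ℕ) [Fact p.Prime] {G : Type u} [Group G] {X ι : Type u}
    (W : ι → FreeGroup (G ⊕ X)) (JW : Set (FreeGroup (G ⊕ X) × ι))
    (JS : Set (FreeGroup (G ⊕ X) × G × G)) (hJW : JW.Finite) (Z : Set (FreeGroup (G ⊕ X)))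
    (hZ : Z.Finite)
    (h0 : ∃ (V : Type) (σ : G ⊕ X → V ≃ V) (v₀ : V), Gd p W JW JS σ v₀) :
    ∃ (V : Type) (σ : G ⊕ X → V ≃ V) (v₀ : V), Gd p W JW JS σ v₀ ∧
      ∀ φ : V → G ⊕ X → ZMod p,
        (∀ u i, (u, i) ∈ JW →
          lb σ (fun v a => Multiplicative.ofAdd (φ v a)) (W i) (en σ u v₀) = 1) →
        (∀ u a b, (u, a, b) ∈ JS →
          lb σ (fun v a => Multiplicative.ofAdd (φ v a)) (srel G X a b) (en σ u v₀) = 1) →
        ∃ f : V → ZMod p, ∀ z ∈ Z,
          Multiplicative.toAdd (lb σ (fun v a => Multiplicative.ofAdd (φ v a)) z v₀) =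
            f (en σ z v₀) := by
  classical
  let S : Set ℕ := {k | ∃ (V : Type) (σ : G ⊕ X → V ≃ V) (v₀ : V), Gd p W JW JS σ v₀ ∧
    ((fun z => en σ z v₀) '' Z).ncard = k}
  have hne : S.Nonempty := by
    obtain ⟨V, σ, v₀, h⟩ := h0
    exact ⟨_, V, σ, v₀, h, rfl⟩
  have hbd : BddAbove S := by
    refine ⟨Z.ncard, ?_⟩
    rintro k ⟨V, σ, v₀, -, rfl⟩
    exact Set.ncard_image_le hZ
  obtain ⟨V, σ, v₀, hgd, hk⟩ := Nat.sSup_mem hne hbd
  refine ⟨V, σ, v₀, hgd, fun φ hφW hφS => ?_⟩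
  obtain ⟨hgd', hen⟩ := ref p G X ι W JW JS V σ v₀ hJW hgd φ hφW hφS
  set y : FreeGroup (G ⊕ X) → ZMod p := fun z =>
    Multiplicative.toAdd (lb σ (fun v a => Multiplicative.ofAdd (φ v a)) z v₀) with hy
  have hle : ((fun z => en (rf σ φ) z (v₀, 0)) '' Z).ncard ≤ ((fun z => en σ z v₀) '' Z).ncard := by
    rw [hk]
    exact le_csSup hbd ⟨V × ZMod p, rf σ φ, (v₀, 0), hgd', rfl⟩
  have him : (fun z => en σ z v₀) '' Z = Prod.fst '' ((fun z => en (rf σ φ) z (v₀, 0)) '' Z) := by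
    rw [Set.image_image]
    refine Set.image_congr fun z _ => ?_
    rw [hen]
  have hfin : ((fun z => en (rf σ φ) z (v₀, 0)) '' Z).Finite := hZ.image _
  have heq : (Prod.fst '' ((fun z => en (rf σ φ) z (v₀, 0)) '' Z)).ncard =
      ((fun z => en (rf σ φ) z (v₀, 0)) '' Z).ncard := by
    refine le_antisymm (Set.ncard_image_le hfin) ?_
    rw [← him]
    exact hle
  have hinj := Set.injOn_of_ncard_image_eq heq hfin
  have hdep : ∀ z ∈ Z, ∀ z' ∈ Z, en σ z v₀ = en σ z' v₀ → y z = y z' := by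
    intro z hz z' hz' h
    have h1 := hinj (Set.mem_image_of_mem _ hz) (Set.mem_image_of_mem _ hz') (by
      simp only [hen]
      exact h)
    simp only [hen] at h1
    exact congrArg Prod.snd h1
  refine ⟨fun v => if h : ∃ z ∈ Z, en σ z v₀ = v then y h.choose else 0, fun z hz => ?_⟩
  have hex : ∃ z' ∈ Z, en σ z' v₀ = en σ z v₀ := ⟨z, hz, rfl⟩
  simp only [dif_pos hex]
  exact hdep z hz _ hex.choose_spec.1 hex.choose_spec.2.symm

end TOW

end Vale.Agent.P174
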