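import Vale.Agent.P174.Tow

/-!
# P174: the tower argument, second part
-/

namespace Vale.Agent.P174

open Monoid WALK

universe u v w

namespace TOW

/-- the finite set of edges -/
def EE {G : Type u} [Group G] {X : Type u} {V : Type} (σ : G ⊕ X → V ≃ V) (v₀ : V)
    (Z : Set (FreeGroup (G ⊕ X))) : Set (V × G) :=
  {e | ∃ z ∈ Z, z * FreeGroup.of (Sum.inl e.2) ∈ Z ∧ en σ z v₀ = e.1}

lemma EE_finite {G : Type u} [Group G] {X : Type u} {V : Type} (σ : G ⊕ X → V ≃ V) (v₀ : V)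
    {Z : Set (FreeGroup (G ⊕ X))} (hZ : Z.Finite) : (EE σ v₀ Z).Finite := by
  have h1 : ((fun k : FreeGroup (G ⊕ X) × G => (k.1, k.1 * FreeGroup.of (Sum.inl k.2))) ⁻¹'
      (Z ×ˢ Z)).Finite := by
    refine (hZ.prod hZ).preimage ?_
    rintro ⟨z, a⟩ - ⟨z', a'⟩ - h
    simp only [Prod.mk.injEq] at h
    obtain ⟨rfl, h2⟩ := h
    have h3 := FreeGroup.of_injective (mul_left_cancel h2)
    rw [Sum.inl.inj h3]
  refine (h1.image (fun k => (en σ k.1 v₀, k.2))).subset ?_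
  rintro ⟨v, a⟩ ⟨z, hz, hz', hv⟩
  refine ⟨(z, a), ⟨hz, hz'⟩, ?_⟩
  simp only at hv
  simp [hv]

lemma lb_srel {H : Type w} [Group H] {G : Type u} [Group G] {X : Type u} {V : Type}
    (σ : G ⊕ X → V ≃ V) (l : V → G ⊕ X → H) (a b : G) (v : V) (hv : en σ (srel G X a b) v = v) :
    lb σ l (srel G X a b) v = l v (Sum.inl a) * l (σ (Sum.inl a) v) (Sum.inl b) *
      (l v (Sum.inl (a * b)))⁻¹ := by
  have h1 : en σ (FreeGroup.of (Sum.inl (a * b)))⁻¹ (σ (Sum.inl b) (σ (Sum.inl a) v)) = v := by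
    have := hv
    rw [srel, en_mul, en_mul, en_of, en_of] at this
    exact this
  rw [srel, lb_mul, lb_mul, lb_of, lb_of, en_mul, en_of, en_of, lb_inv, h1, lb_of]

lemma mv_srel {G : Type u} [Group G] {X : Type u} {V : Type}
    (σ : G ⊕ X → V ≃ V) (a b : G) (v : V) (hv : en σ (srel G X a b) v = v) :
    σ (Sum.inl (a * b)) v = σ (Sum.inl b) (σ (Sum.inl a) v) := by
  have h1 : en σ (FreeGroup.of (Sum.inl (a * b)))⁻¹ (σ (Sum.inl b) (σ (Sum.inl a) v)) = v := by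
    have := hv
    rw [srel, en_mul, en_mul, en_of, en_of] at this
    exact this
  have h2 := en_en_inv σ (FreeGroup.of (Sum.inl (a * b))) (σ (Sum.inl b) (σ (Sum.inl a) v))
  rw [h1, en_of] at h2
  exact h2

section edges

variable {p : ℕ} {G : Type u} [Group G] {X ι : Type u} {W : ι → FreeGroup (G ⊕ X)}
  {JW : Set (FreeGroup (G ⊕ X) × ι)} {JS : Set (FreeGroup (G ⊕ X) × G × G)} {V : Type}
  {σ : G ⊕ X → V ≃ V} {v₀ : V}

lemma edge1 (g : G) {u : FreeGroup (G ⊕ X)} {a b : G} (h : (u, a, b) ∈ JS) :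
    (en σ u v₀, a) ∈ EE σ v₀ (ZZ g JS) :=
  ⟨u, Or.inr (Or.inl ⟨_, h, rfl⟩), Or.inr (Or.inr (Or.inl ⟨_, h, rfl⟩)), rfl⟩

lemma edge2 (g : G) {u : FreeGroup (G ⊕ X)} {a b : G} (h : (u, a, b) ∈ JS) :
    (σ (Sum.inl a) (en σ u v₀), b) ∈ EE σ v₀ (ZZ g JS) := by
  refine ⟨u * FreeGroup.of (Sum.inl a), Or.inr (Or.inr (Or.inl ⟨_, h, rfl⟩)),
    Or.inr (Or.inr (Or.inr (Or.inl ⟨_, h, rfl⟩))), ?_⟩
  rw [en_mul, en_of]

lemma edge3 (hgd : Gd p W JW JS σ v₀) (g : G) {u : FreeGroup (G ⊕ X)} {a b : G}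
    (h : (u, a, b) ∈ JS) : (en σ u v₀, a * b) ∈ EE σ v₀ (ZZ g JS) := by
  refine ⟨u * srel G X a b, Or.inr (Or.inr (Or.inr (Or.inr ⟨_, h, rfl⟩))),
    Or.inr (Or.inr (Or.inr (Or.inl ⟨_, h, ?_⟩))), ?_⟩
  · simp [srel, mul_assoc]
  · rw [en_mul]
    exact hgd.cS u a b h

end edges

/-- the hypothesis of the gauge lemma -/
lemma gaugeHyp (p : ℕ) [Fact p.Prime] {G : Type u} [Group G] {X ι : Type u}
    (W : ι → FreeGroup (G ⊕ X)) (JW : Set (FreeGroup (G ⊕ X) × ι))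
    (JS : Set (FreeGroup (G ⊕ X) × G × G)) (g : G) {V : Type} (σ : G ⊕ X → V ≃ V) (v₀ : V)
    (hgd : Gd p W JW JS σ v₀)
    (hmax : ∀ φ : V → G ⊕ X → ZMod p,
        (∀ u i, (u, i) ∈ JW →
          lb σ (fun v a => Multiplicative.ofAdd (φ v a)) (W i) (en σ u v₀) = 1) →
        (∀ u a b, (u, a, b) ∈ JS →
          lb σ (fun v a => Multiplicative.ofAdd (φ v a)) (srel G X a b) (en σ u v₀) = 1) →
        ∃ f : V → ZMod p, ∀ z ∈ ZZ g JS,
          Multiplicative.toAdd (lb σ (fun v a => Multiplicative.ofAdd (φ v a)) z v₀) =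
            f (en σ z v₀))
    {Q : Type u} [Group Q] (κ : G →* Q) (γ : V → Q) (A : Subgroup Q)
    (ψ : A →* Multiplicative (ZMod p))
    (hA : ∀ e ∈ EE σ v₀ (ZZ g JS), γ e.1 * κ e.2 * (γ (σ (Sum.inl e.2) e.1))⁻¹ ∈ A) :
    ∃ f : V → ZMod p, ∀ e ∈ EE σ v₀ (ZZ g JS),
      ∀ h : γ e.1 * κ e.2 * (γ (σ (Sum.inl e.2) e.1))⁻¹ ∈ A,
      Multiplicative.toAdd (ψ ⟨_, h⟩) = f (σ (Sum.inl e.2) e.1) - f e.1 := by
  classical
  let φ₀ : V → G ⊕ X → Multiplicative (ZMod p) := fun v => Sum.elim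
    (fun a => if h : γ v * κ a * (γ (σ (Sum.inl a) v))⁻¹ ∈ A then ψ ⟨_, h⟩ else 1) (fun _ => 1)
  obtain ⟨Φ, hΦ⟩ := ELEM.exists_map hgd.ind
    (fun c => - Multiplicative.toAdd (lb σ φ₀ (W c.1.2) c.1.1))
  let φ : V → G ⊕ X → ZMod p := fun v => Sum.elim (fun a => Multiplicative.toAdd (φ₀ v (Sum.inl a)))
    (fun j => Φ (Finsupp.single (v, j) 1))
  have hφ : ∀ z v, lb σ (fun v a => Multiplicative.ofAdd (φ v a)) z v =
      lb σ φ₀ z v * Multiplicative.ofAdd (Φ (rw' p σ z v)) := by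
    intro z v
    have h1 := lb_split σ (fun v a => Multiplicative.ofAdd (φ v a)) φ₀
      (fun v a => Multiplicative.ofAdd (Φ (Multiplicative.toAdd (Sum.elim
        (fun _ : G => (1 : Multiplicative (V × X →₀ ZMod p)))
        (fun j : X => Multiplicative.ofAdd (Finsupp.single (v, j) 1)) a)))) (by
        intro v a
        cases a with
        | inl a => simp [φ]
        | inr j => simp [φ, φ₀]) z v
    rw [h1]
    congr 1
    have h2 := lb_map σ (AddMonoidHom.toMultiplicative Φ.toAddMonoidHom)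
      (fun (v : V) (a : G ⊕ X) => Sum.elim
        (fun _ : G => (1 : Multiplicative (V × X →₀ ZMod p)))
        (fun j : X => Multiplicative.ofAdd (Finsupp.single (v, j) 1)) a) z v
    exact h2.symm
  obtain ⟨f, hf⟩ := hmax φ (by
    intro u i hu
    rw [hφ]
    have h1 := hΦ ⟨(en σ u v₀, i), u, hu, rfl⟩
    simp only at h1
    rw [h1]
    exact mul_inv_cancel _) (by
    intro u a b hu
    have h1 := hA _ (edge1 (σ := σ) (v₀ := v₀) g hu)
    have h2 := hA _ (edge2 (σ := σ) (v₀ := v₀) g hu)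
    have h3 := hA _ (edge3 hgd g hu)
    have hc := hgd.cS u a b hu
    have hm := mv_srel σ a b (en σ u v₀) hc
    simp only at h1 h2 h3
    rw [lb_srel σ _ a b _ hc]
    simp only [φ, φ₀, Sum.elim_inl]
    rw [dif_pos h1, dif_pos h2, dif_pos h3]
    simp only [ofAdd_toAdd]
    rw [mul_inv_eq_one, ← map_mul]
    congr 1
    apply Subtype.ext
    simp only [Subgroup.coe_mul]
    rw [hm, map_mul]
    group)
  refine ⟨f, ?_⟩
  rintro ⟨v, a⟩ ⟨z, hz, hz', hv⟩ h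
  simp only at hv h ⊢
  have h1 := hf z hz
  have h2 := hf _ hz'
  rw [lb_mul, lb_of, en_mul, en_of, toAdd_mul, h1, hv] at h2
  rw [← h2]
  simp only [φ, φ₀, Sum.elim_inl]
  rw [dif_pos h]
  simp

end TOW

end Vale.Agent.P174
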