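import Vale.Agent.P174.TDefs

/-!
# P174, VK: finite witnesses
-/

namespace Vale.Agent.P174

open Monoid

universe u v w

namespace VkX

/-- the cells with finitely many witnesses -/
def cells {G : Type u} [Group G] {X ι : Type u} (W : ι → FreeGroup (G ⊕ X))
    (JW : Set (FreeGroup (G ⊕ X) × ι)) (JS : Set (FreeGroup (G ⊕ X) × G × G)) :
    Set (FreeGroup (G ⊕ X)) :=
  {z | ∃ u i, (u, i) ∈ JW ∧ z = u * W i * u⁻¹} ∪
    {z | ∃ u a b, (u, a, b) ∈ JS ∧ z = u * srel G X a b * u⁻¹}

theorem cells_mono {G : Type u} [Group G] {X ι : Type u} (W : ι → FreeGroup (G ⊕ X))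
    {JW JW' : Set (FreeGroup (G ⊕ X) × ι)} {JS JS' : Set (FreeGroup (G ⊕ X) × G × G)}
    (h1 : JW ⊆ JW') (h2 : JS ⊆ JS') : cells W JW JS ⊆ cells W JW' JS' := by
  rintro z (⟨u, i, h, rfl⟩ | ⟨u, a, b, h, rfl⟩)
  · exact Or.inl ⟨u, i, h1 h, rfl⟩
  · exact Or.inr ⟨u, a, b, h2 h, rfl⟩

theorem fin_wit {G : Type u} [Group G] {X ι : Type u} (W : ι → FreeGroup (G ⊕ X))
    (z : FreeGroup (G ⊕ X))
    (hz : z ∈ Subgroup.normalClosure (Set.range W ∪ Set.range (fun q : G × G => srel G X q.1 q.2))) :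
    ∃ (JW : Set (FreeGroup (G ⊕ X) × ι)) (JS : Set (FreeGroup (G ⊕ X) × G × G)),
      JW.Finite ∧ JS.Finite ∧ z ∈ Subgroup.closure (cells W JW JS) := by
  rw [Subgroup.normalClosure] at hz
  induction hz using Subgroup.closure_induction with
  | mem z hz =>
    rw [Group.mem_conjugatesOfSet_iff] at hz
    obtain ⟨a, ha, hc⟩ := hz
    obtain ⟨u, hu⟩ := isConj_iff.mp hc
    rcases ha with ⟨i, rfl⟩ | ⟨⟨a, b⟩, rfl⟩
    · exact ⟨{(u, i)}, ∅, Set.finite_singleton _, Set.finite_empty,
        Subgroup.subset_closure (Or.inl ⟨u, i, rfl, hu.symm⟩)⟩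
    · exact ⟨∅, {(u, a, b)}, Set.finite_empty, Set.finite_singleton _,
        Subgroup.subset_closure (Or.inr ⟨u, a, b, rfl, hu.symm⟩)⟩
  | one => exact ⟨∅, ∅, Set.finite_empty, Set.finite_empty, one_mem _⟩
  | mul x y _ _ hx hy =>
    obtain ⟨J1, K1, h1, h2, h3⟩ := hx
    obtain ⟨J2, K2, h4, h5, h6⟩ := hy
    refine ⟨J1 ∪ J2, K1 ∪ K2, h1.union h4, h2.union h5, mul_mem ?_ ?_⟩
    · exact Subgroup.closure_mono (cells_mono W Set.subset_union_left Set.subset_union_left) h3
    · exact Subgroup.closure_mono (cells_mono W Set.subset_union_right Set.subset_union_right) h6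
  | inv x _ hx =>
    obtain ⟨J1, K1, h1, h2, h3⟩ := hx
    exact ⟨J1, K1, h1, h2, inv_mem h3⟩

/-- the projection of the free group -/
def pr (G : Type u) [Group G] (X : Type u) : FreeGroup (G ⊕ X) →* Coprod G (FreeGroup X) :=
  FreeGroup.lift (Sum.elim (fun a => (Coprod.inl a : Coprod G (FreeGroup X)))
    (fun j => Coprod.inr (FreeGroup.of j)))

theorem pr_inl {G : Type u} [Group G] {X : Type u} (a : G) :
    pr G X (FreeGroup.of (Sum.inl a)) = Coprod.inl a := by simp [pr]

theorem pr_inr {G : Type u} [Group G] {X : Type u} (a : X) :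
    pr G X (FreeGroup.of (Sum.inr a)) = Coprod.inr (FreeGroup.of a) := by simp [pr]

theorem pr_surj (G : Type u) [Group G] (X : Type u) : Function.Surjective (pr G X) := by
  rw [← MonoidHom.range_eq_top, eq_top_iff]
  intro z _
  induction z using Coprod.induction_on with
  | inl a => exact ⟨FreeGroup.of (Sum.inl a), pr_inl a⟩
  | inr b =>
    refine ⟨FreeGroup.map Sum.inr b, ?_⟩
    have h : (pr G X).comp (FreeGroup.map Sum.inr) = Coprod.inr := by
      ext a
      simp [pr]
    exact DFunLike.congr_fun h b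
  | mul x y hx hy => exact mul_mem (hx trivial) (hy trivial)

theorem ker_sub {G : Type u} [Group G] {X ι : Type u} (W : ι → FreeGroup (G ⊕ X)) (g : G)
    (hg : (Coprod.inl g : Coprod G (FreeGroup X)) ∈
      Subgroup.normalClosure (Set.range fun i => pr G X (W i))) :
    FreeGroup.of (Sum.inl g) ∈ Subgroup.normalClosure
      (Set.range W ∪ Set.range (fun q : G × G => srel G X q.1 q.2)) := by
  set N := Subgroup.normalClosure
      (Set.range W ∪ Set.range (fun q : G × G => srel G X q.1 q.2)) with hN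
  have hmul : ∀ a b : G, (QuotientGroup.mk' N (FreeGroup.of (Sum.inl (a * b)))) =
      QuotientGroup.mk' N (FreeGroup.of (Sum.inl a)) *
        QuotientGroup.mk' N (FreeGroup.of (Sum.inl b)) := by
    intro a b
    have h1 : QuotientGroup.mk' N (srel G X a b) = 1 := by
      rw [QuotientGroup.mk'_apply, QuotientGroup.eq_one_iff]
      exact Subgroup.subset_normalClosure (Or.inr ⟨(a, b), rfl⟩)
    rw [srel, map_mul, map_mul, map_inv, mul_inv_eq_one] at h1
    exact h1.symm
  let φ : G →* FreeGroup (G ⊕ X) ⧸ N :=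
    MonoidHom.mk' (fun a => QuotientGroup.mk' N (FreeGroup.of (Sum.inl a))) hmul
  let ρ : Coprod G (FreeGroup X) →* FreeGroup (G ⊕ X) ⧸ N :=
    Coprod.lift φ (FreeGroup.lift fun j => QuotientGroup.mk' N (FreeGroup.of (Sum.inr j)))
  have hρ : ρ.comp (pr G X) = QuotientGroup.mk' N := by
    ext a
    rcases a with a | a
    · rw [MonoidHom.comp_apply, pr_inl]
      simp only [ρ, Coprod.lift_apply_inl]
      rfl
    · rw [MonoidHom.comp_apply, pr_inr]
      simp only [ρ, Coprod.lift_apply_inr, FreeGroup.lift_apply_of]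
  have hle : Subgroup.normalClosure (Set.range fun i => pr G X (W i)) ≤ ρ.ker := by
    refine Subgroup.normalClosure_le_normal ?_
    rintro _ ⟨i, rfl⟩
    have h1 := DFunLike.congr_fun hρ (W i)
    rw [SetLike.mem_coe, MonoidHom.mem_ker]
    rw [MonoidHom.comp_apply] at h1
    show ρ (pr G X (W i)) = 1
    rw [h1, QuotientGroup.mk'_apply, QuotientGroup.eq_one_iff]
    exact Subgroup.subset_normalClosure (Or.inl ⟨i, rfl⟩)
  have h2 := hle hg
  rw [MonoidHom.mem_ker] at h2
  have h3 := DFunLike.congr_fun hρ (FreeGroup.of (Sum.inl g))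
  rw [MonoidHom.comp_apply, pr_inl, h2, QuotientGroup.mk'_apply, eq_comm,
    QuotientGroup.eq_one_iff] at h3
  exact h3

end VkX

open VkX in
theorem vk : S_VK.{u} := by
  intro G _ X ι w
  choose W hW using fun i => pr_surj G X (w i)
  refine ⟨W, hW, fun g hg => ?_⟩
  have hw : w = fun i => pr G X (W i) := funext fun i => (hW i).symm
  rw [hw] at hg
  exact fin_wit W _ (ker_sub W g hg)

end Vale.Agent.P174
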