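import Vale.Agent.P174.Tow2
import Vale.Agent.P174.Gauge2
import Vale.Agent.P174.Vk

/-!
# P174: the local criterion
-/

namespace Vale.Agent.P174

open Monoid WALK

universe u v w

namespace TOW

/-- the hypothesis of the gauge lemma -/
lemma gaugeHyp2 (p : ℕ) [Fact p.Prime] {G : Type u} [Group G] {X ι : Type u}
    (W : ι → FreeGroup (G ⊕ X)) (JW : Set (FreeGroup (G ⊕ X) × ι))
    (JS : Set (FreeGroup (G ⊕ X) × G × G)) (g : G) {V : Type} (σ : G ⊕ X → V ≃ V) (v₀ : V)
    (hgd : Gd p W JW JS σ v₀)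
    (hmax : ∀ φ : V → G ⊕ X → ZMod p,
        (∀ u i, (u, i) ∈ JW →
          lb σ (fun v a => Multiplicative.ofAdd (φ v a)) (W i) (en σ u v₀) = 1) →
        (∀ u a b, (u, a, b) ∈ JS →
          lb σ (fun v a => Multiplicative.ofAdd (φ v a)) (srel G X a b) (en σ u v₀) = 1) →
        ∃ f : V → ZMod p, ∀ z ∈ ZZ g JS,
          Multiplicative.toAdd (lb σ (fun v a => Multiplicative.ofAdd (φ v a)) z v₀) =
            f (en σ z v₀))
    (γ : V → G) (A : Subgroup G)
    (ψ : A →* Multiplicative (ZMod p)) (C : Set V)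
    (hC : ∀ e ∈ EE σ v₀ (ZZ g JS), e.1 ∈ C ↔ σ (Sum.inl e.2) e.1 ∈ C)
    (hA : ∀ e ∈ EE σ v₀ (ZZ g JS), e.1 ∈ C → γ e.1 * e.2 * (γ (σ (Sum.inl e.2) e.1))⁻¹ ∈ A) :
    ∃ f : V → ZMod p, ∀ e ∈ EE σ v₀ (ZZ g JS), e.1 ∈ C →
      ∀ h : γ e.1 * e.2 * (γ (σ (Sum.inl e.2) e.1))⁻¹ ∈ A,
      Multiplicative.toAdd (ψ ⟨_, h⟩) = f (σ (Sum.inl e.2) e.1) - f e.1 := by
  classical
  let φ₀ : V → G ⊕ X → Multiplicative (ZMod p) := fun v => Sum.elim
    (fun a => if h : v ∈ C ∧ γ v * a * (γ (σ (Sum.inl a) v))⁻¹ ∈ A then ψ ⟨_, h.2⟩ else 1)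
    (fun _ => 1)
  obtain ⟨Φ, hΦ⟩ := ELEM.exists_map hgd.ind
    (fun c => - Multiplicative.toAdd (lb σ φ₀ (W c.1.2) c.1.1))
  let φ : V → G ⊕ X → ZMod p := fun v => Sum.elim (fun a => Multiplicative.toAdd (φ₀ v (Sum.inl a)))
    (fun j => Φ (Finsupp.single (v, j) 1))
  have hφ : ∀ z v, lb σ (fun v a => Multiplicative.ofAdd (φ v a)) z v =
      lb σ φ₀ z v * Multiplicative.ofAdd (Φ (rw' p σ z v)) := by
    intro z v
    have h1 := lb_split σ (fun v a => Multiplicative.ofAdd (φ v a)) φ₀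
      (fun v a => Multiplicative.ofAdd (Φ (Multiplicative.toAdd (Sum.elim
        (fun _ : G => (1 : Multiplicative (V × X →₀ ZMod p)))
        (fun j : X => Multiplicative.ofAdd (Finsupp.single (v, j) 1)) a)))) (by
        intro v a
        cases a with
        | inl a => simp [φ]
        | inr j => simp [φ, φ₀]) z v
    rw [h1]
    congr 1
    have h2 := lb_map σ (AddMonoidHom.toMultiplicative Φ.toAddMonoidHom)
      (fun (v : V) (a : G ⊕ X) => Sum.elim
        (fun _ : G => (1 : Multiplicative (V × X →₀ ZMod p)))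
        (fun j : X => Multiplicative.ofAdd (Finsupp.single (v, j) 1)) a) z v
    exact h2.symm
  obtain ⟨f, hf⟩ := hmax φ (by
    intro u i hu
    rw [hφ]
    have h1 := hΦ ⟨(en σ u v₀, i), u, hu, rfl⟩
    simp only at h1
    rw [h1]
    exact mul_inv_cancel _) (by
    intro u a b hu
    have hc := hgd.cS u a b hu
    have hm := mv_srel σ a b (en σ u v₀) hc
    have hCa := hC _ (edge1 (σ := σ) (v₀ := v₀) g hu)
    rw [lb_srel σ _ a b _ hc]
    simp only at hCa
    by_cases hvC : en σ u v₀ ∈ C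
    · have hvC' := hCa.mp hvC
      have h1 := hA _ (edge1 (σ := σ) (v₀ := v₀) g hu) hvC
      have h2 := hA _ (edge2 (σ := σ) (v₀ := v₀) g hu) hvC'
      have h3 := hA _ (edge3 hgd g hu) hvC
      simp only at h1 h2 h3
      simp only [φ, φ₀, Sum.elim_inl]
      rw [dif_pos ⟨hvC, h1⟩, dif_pos ⟨hvC', h2⟩, dif_pos ⟨hvC, h3⟩]
      simp only [ofAdd_toAdd]
      rw [mul_inv_eq_one, ← map_mul]
      congr 1
      apply Subtype.ext
      simp only [Subgroup.coe_mul]
      rw [hm]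
      group
    · have hvC' : σ (Sum.inl a) (en σ u v₀) ∉ C := fun h => hvC (hCa.mpr h)
      simp only [φ, φ₀, Sum.elim_inl]
      rw [dif_neg (fun h => hvC h.1), dif_neg (fun h => hvC' h.1), dif_neg (fun h => hvC h.1)]
      simp)
  refine ⟨f, ?_⟩
  rintro ⟨v, a⟩ ⟨z, hz, hz', hv⟩ hvC h
  simp only at hv h hvC ⊢
  have h1 := hf z hz
  have h2 := hf _ hz'
  rw [lb_mul, lb_of, en_mul, en_of, toAdd_mul, h1, hv] at h2
  rw [← h2]
  simp only [φ, φ₀, Sum.elim_inl]
  rw [dif_pos ⟨hvC, h⟩]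
  simp


/-- the last step: the derived system over `N` -/
lemma last2 (p : ℕ) [Fact p.Prime] {G : Type u} [Group G] {X ι : Type u}
    (W : ι → FreeGroup (G ⊕ X)) (JW : Set (FreeGroup (G ⊕ X) × ι))
    (JS : Set (FreeGroup (G ⊕ X) × G × G)) (g : G) {V : Type} (σ : G ⊕ X → V ≃ V) (v₀ : V)
    (hgd : Gd p W JW JS σ v₀) (N : Subgroup G) (hN : SolvP p N) (γ : V → G)
    (C : Set V) (hv₀ : v₀ ∈ C) (hC : ∀ e ∈ EE σ v₀ (ZZ g JS), e.1 ∈ C ↔ σ (Sum.inl e.2) e.1 ∈ C)
    (hγ : ∀ e ∈ EE σ v₀ (ZZ g JS), e.1 ∈ C → γ e.1 * e.2 * (γ (σ (Sum.inl e.2) e.1))⁻¹ ∈ N)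
    (hcl : FreeGroup.of (Sum.inl g) ∈ Subgroup.closure
          ({z | ∃ u i, (u, i) ∈ JW ∧ z = u * W i * u⁻¹} ∪
            {z | ∃ u a b, (u, a, b) ∈ JS ∧ z = u * srel G X a b * u⁻¹})) : g = 1 := by
  classical
  let lam : V → G ⊕ X → Coprod N (FreeGroup (V × X)) := fun v => Sum.elim
    (fun a => if h : v ∈ C ∧ γ v * a * (γ (σ (Sum.inl a) v))⁻¹ ∈ N then Coprod.inl ⟨_, h.2⟩
      else 1)
    (fun j => Coprod.inr (FreeGroup.of (v, j)))
  let w' : {c : V × ι // ∃ u, (u, c.2) ∈ JW ∧ en σ u v₀ = c.1} → Coprod N (FreeGroup (V × X)) :=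
    fun c => lb σ lam (W c.1.2) c.1.1
  have hex : ∀ z v, ex p (lb σ lam z v) = Multiplicative.ofAdd (rw' p σ z v) := by
    intro z v
    have h1 := lb_map σ (ex p) lam z v
    rw [h1]
    have h2 : (fun v a => ex p (lam v a)) = (fun v a => Sum.elim
        (fun _ : G => (1 : Multiplicative (V × X →₀ ZMod p)))
        (fun j : X => Multiplicative.ofAdd (Finsupp.single (v, j) 1)) a) := by
      funext v a
      cases a with
      | inl a =>
        simp only [lam, Sum.elim_inl]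
        split_ifs with h
        · exact WR.ex_inl p _
        · exact map_one _
      | inr j =>
        simp only [lam, Sum.elim_inr]
        exact WR.ex_of p _
    rw [h2]
    rfl
  have hind : Ind p w' := by
    rw [Ind]
    simp only [w', hex, toAdd_ofAdd]
    exact hgd.ind
  have hinj := inf p N hN _ _ w' hind
  let K := Subgroup.normalClosure (Set.range w')
  let q : Coprod N (FreeGroup (V × X)) →* (Coprod N (FreeGroup (V × X)) ⧸ K) := QuotientGroup.mk' K
  let mu : V → G ⊕ X → (Coprod N (FreeGroup (V × X)) ⧸ K) := fun v a => q (lam v a)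
  have hmu : ∀ z v, lb σ mu z v = q (lb σ lam z v) := fun z v => (lb_map σ q lam z v).symm
  have hedge : ∀ e ∈ EE σ v₀ (ZZ g JS), e.1 ∈ C →
      ∃ h : γ e.1 * e.2 * (γ (σ (Sum.inl e.2) e.1))⁻¹ ∈ N,
      lam e.1 (Sum.inl e.2) = Coprod.inl ⟨_, h⟩ := by
    intro e he hc
    refine ⟨hγ e he hc, ?_⟩
    simp only [lam, Sum.elim_inl]
    rw [dif_pos ⟨hc, hγ e he hc⟩]
  have hout : ∀ v a, v ∉ C → lam v (Sum.inl a) = 1 := by
    intro v a hv
    simp only [lam, Sum.elim_inl]
    rw [dif_neg (fun h => hv h.1)]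
  let Fix : Subgroup (FreeGroup (G ⊕ X)) :=
    { carrier := {z | en σ z v₀ = v₀ ∧ lb σ mu z v₀ = 1}
      one_mem' := by simp
      mul_mem' := by
        rintro a b ⟨ha, ha'⟩ ⟨hb, hb'⟩
        refine ⟨?_, ?_⟩
        · rw [en_mul, ha, hb]
        · rw [lb_mul, ha', ha, hb', mul_one]
      inv_mem' := by
        rintro a ⟨ha, ha'⟩
        have h1 : en σ a⁻¹ v₀ = v₀ := by
          have := en_inv_en σ a v₀
          rwa [ha] at this
        refine ⟨h1, ?_⟩
        rw [lb_inv, h1, ha', inv_one] }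
  have hconj : ∀ u r, en σ r (en σ u v₀) = en σ u v₀ → lb σ mu r (en σ u v₀) = 1 →
      u * r * u⁻¹ ∈ Fix := by
    intro u r h1 h2
    refine ⟨?_, ?_⟩
    · rw [en_mul, en_mul, h1, en_inv_en]
    · rw [lb_mul, lb_mul, h2, mul_one, en_mul, h1, lb_inv_en, mul_inv_cancel]
  have hle : Subgroup.closure
          ({z | ∃ u i, (u, i) ∈ JW ∧ z = u * W i * u⁻¹} ∪
            {z | ∃ u a b, (u, a, b) ∈ JS ∧ z = u * srel G X a b * u⁻¹}) ≤ Fix := by
    rw [Subgroup.closure_le]
    rintro z (⟨u, i, hu, rfl⟩ | ⟨u, a, b, hu, rfl⟩)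
    · refine hconj u _ (hgd.cW u i hu) ?_
      rw [hmu]
      have h1 : lb σ lam (W i) (en σ u v₀) = w' ⟨(en σ u v₀, i), u, hu, rfl⟩ := rfl
      rw [h1]
      exact (QuotientGroup.eq_one_iff _).mpr (Subgroup.subset_normalClosure ⟨_, rfl⟩)
    · have hc := hgd.cS u a b hu
      refine hconj u _ hc ?_
      have hCa := hC _ (edge1 (σ := σ) (v₀ := v₀) g hu)
      simp only at hCa
      by_cases hvC : en σ u v₀ ∈ C
      · obtain ⟨h1, h1'⟩ := hedge _ (edge1 (σ := σ) (v₀ := v₀) g hu) hvC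
        obtain ⟨h2, h2'⟩ := hedge _ (edge2 (σ := σ) (v₀ := v₀) g hu) (hCa.mp hvC)
        obtain ⟨h3, h3'⟩ := hedge _ (edge3 hgd g hu) hvC
        simp only at h1 h1' h2 h2' h3 h3'
        have hm := mv_srel σ a b (en σ u v₀) hc
        rw [hmu, lb_srel σ _ a b _ hc, h1', h2', h3', ← map_inv, ← map_mul, ← map_mul]
        have h4 : (⟨_, h1⟩ : N) * ⟨_, h2⟩ * (⟨_, h3⟩ : N)⁻¹ = 1 := by
          rw [mul_inv_eq_one]
          apply Subtype.ext
          simp only [Subgroup.coe_mul]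
          rw [hm]
          group
        rw [h4, map_one, map_one]
      · rw [hmu, lb_srel σ _ a b _ hc, hout _ _ hvC, hout _ _ (fun h => hvC (hCa.mpr h)),
          hout _ _ hvC]
        simp
  obtain ⟨hg1, hg2⟩ := hle hcl
  rw [en_of] at hg1
  have hmem : (v₀, g) ∈ EE σ v₀ (ZZ g JS) :=
    ⟨1, Or.inl (by simp), Or.inl (by simp), by simp⟩
  obtain ⟨h1, h1'⟩ := hedge _ hmem hv₀
  simp only at h1 h1'
  rw [hmu, lb_of, h1'] at hg2
  have h2 := hinj _ ((QuotientGroup.eq_one_iff _).mp hg2)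
  have h3 := congrArg Subtype.val h2
  simp only [Subgroup.coe_one] at h3
  rw [hg1] at h3
  have h4 : g = (γ v₀)⁻¹ * (γ v₀ * g * (γ v₀)⁻¹) * γ v₀ := by group
  rw [h4, h3]
  group

end TOW

open TOW in
/-- **Local criterion.** If every finitely generated subgroup of `G` either has the property
`SolvP p` or has a quotient of order `p`, then `G` has the property `SolvP p`. -/
theorem tow2 (p : ℕ) [Fact p.Prime] (G : Type u) [Group G]
    (hG : ∀ K : Subgroup G, K.FG → SolvP p K ∨ ∃ ψ : K →* Multiplicative (ZMod p), ψ ≠ 1) :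
    SolvP p G := by
  intro m n w hw
  classical
  have hW := EXT.ind_up p w hw
  have key : Inj (EXT.up w) := by
    intro g hg
    obtain ⟨W, hWw, hwit⟩ := vk G (ULift.{u} (Fin n)) (ULift.{u} (Fin m)) (EXT.up w)
    obtain ⟨JW, JS, hJW, hJS, hcl⟩ := hwit g hg
    -- the one-point structure
    have h0 : ∃ (V : Type) (σ : G ⊕ ULift.{u} (Fin n) → V ≃ V) (v₀ : V), Gd p W JW JS σ v₀ := by
      refine ⟨Unit, fun _ => Equiv.refl _, (), fun _ _ _ => rfl, fun _ _ _ _ => rfl, ?_⟩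
      have hrow : ∀ z : FreeGroup (G ⊕ ULift.{u} (Fin n)),
          (rw' p (fun _ => Equiv.refl Unit) z ()).mapDomain Prod.snd = Multiplicative.toAdd
            (ex p (FreeGroup.lift (Sum.elim (fun a => (Coprod.inl a :
              Coprod G (FreeGroup (ULift.{u} (Fin n)))))
              (fun j => Coprod.inr (FreeGroup.of j))) z)) := by
        intro z
        have h1 := lb_map (fun _ : G ⊕ ULift.{u} (Fin n) => Equiv.refl Unit)
          (AddMonoidHom.toMultiplicative (Finsupp.mapDomain.addMonoidHom (M := ZMod p)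
            (Prod.snd : Unit × ULift.{u} (Fin n) → ULift.{u} (Fin n))))
          (fun (v : Unit) (a : G ⊕ ULift.{u} (Fin n)) => Sum.elim
            (fun _ : G => (1 : Multiplicative (Unit × ULift.{u} (Fin n) →₀ ZMod p)))
            (fun j => Multiplicative.ofAdd (Finsupp.single (v, j) 1)) a) z ()
        have h2 : ∀ z : FreeGroup (G ⊕ ULift.{u} (Fin n)), ∀ v,
            lb (fun _ : G ⊕ ULift.{u} (Fin n) => Equiv.refl Unit)
            (fun (v : Unit) (a : G ⊕ ULift.{u} (Fin n)) =>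
              (AddMonoidHom.toMultiplicative (Finsupp.mapDomain.addMonoidHom (M := ZMod p)
            (Prod.snd : Unit × ULift.{u} (Fin n) → ULift.{u} (Fin n)))) (Sum.elim
            (fun _ : G => (1 : Multiplicative (Unit × ULift.{u} (Fin n) →₀ ZMod p)))
            (fun j => Multiplicative.ofAdd (Finsupp.single (v, j) 1)) a)) z v =
            ex p (FreeGroup.lift (Sum.elim (fun a => (Coprod.inl a :
              Coprod G (FreeGroup (ULift.{u} (Fin n)))))
              (fun j => Coprod.inr (FreeGroup.of j))) z) := by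
          intro z
          induction z using FreeGroup.induction_on with
          | C1 => intro v; simp
          | of a =>
            intro v
            cases a with
            | inl a => simp [WR.ex_inl]
            | inr j => simp [WR.ex_of]
          | inv_of a ih => intro v; rw [lb_inv, ih, map_inv, map_inv]
          | mul a b iha ihb => intro v; rw [lb_mul, iha, ihb, map_mul, map_mul]
        exact congrArg Multiplicative.toAdd (h1.trans (h2 z ()))
      refine LinearIndependent.of_comp (Finsupp.lmapDomain (ZMod p) (ZMod p)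
        (Prod.snd : Unit × ULift.{u} (Fin n) → ULift.{u} (Fin n))) ?_
      have he : (⇑(Finsupp.lmapDomain (ZMod p) (ZMod p)
          (Prod.snd : Unit × ULift.{u} (Fin n) → ULift.{u} (Fin n))) ∘
          fun c : {c : Unit × ULift.{u} (Fin m) // ∃ u, (u, c.2) ∈ JW ∧
            en (fun _ : G ⊕ ULift.{u} (Fin n) => Equiv.refl Unit) u () = c.1} =>
            rw' p (fun _ => Equiv.refl Unit) (W c.1.2) c.1.1) =
          ((fun i => Multiplicative.toAdd (ex p (EXT.up w i))) ∘ fun c => c.1.2) := by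
        funext c
        simp only [Function.comp_apply, Finsupp.lmapDomain_apply]
        rw [← hWw]
        exact hrow _
      rw [he]
      refine LinearIndependent.comp hW _ ?_
      rintro ⟨⟨v, i⟩, hc⟩ ⟨⟨v', i'⟩, hc'⟩ h
      simp only at h
      subst h
      rfl
    obtain ⟨V, σ, v₀, hgd, hmax⟩ := exists_max p W JW JS hJW (ZZ g JS) (ZZ_finite g hJS) h0
    obtain ⟨γ, A, C, hv₀, hfg, hψ, hC, hA⟩ := gauge2 p (fun a => σ (Sum.inl a)) (fun a : G => a)
      (EE σ v₀ (ZZ g JS)) (EE_finite σ v₀ (ZZ_finite g hJS)) v₀ (by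
        intro γ A ψ C hC hA
        exact gaugeHyp2 p W JW JS g σ v₀ hgd hmax γ A ψ C hC hA)
    have hSA : SolvP p A := by
      rcases hG A hfg with h | ⟨ψ, h⟩
      · exact h
      · exact absurd (hψ ψ) h
    exact last2 p W JW JS g σ v₀ hgd A hSA γ C hv₀ hC hA hcl
  let R := Subgroup.normalClosure (Set.range (EXT.up w))
  let f : G →* (Coprod G (FreeGroup (ULift.{u} (Fin n))) ⧸ R) :=
    (QuotientGroup.mk' R).comp Coprod.inl
  let h : ULift.{u} (Fin n) → (Coprod G (FreeGroup (ULift.{u} (Fin n))) ⧸ R) :=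
    fun j => QuotientGroup.mk' R (Coprod.inr (FreeGroup.of j))
  have hev : ev f h = QuotientGroup.mk' R := by
    refine WR.ev_ext (fun a => ?_) (fun j => ?_) <;> simp [f, h]
  refine ⟨_, inferInstance, f, fun j => h (ULift.up j), ?_, ?_⟩
  · rw [injective_iff_map_eq_one]
    intro a ha
    exact key a ((QuotientGroup.eq_one_iff _).mp ha)
  · intro k
    have h1 : ev f h (EXT.up w (ULift.up k)) = 1 := by
      rw [hev]
      exact (QuotientGroup.eq_one_iff _).mpr (Subgroup.subset_normalClosure ⟨ULift.up k, rfl⟩)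
    rw [EXT.up, EXT.ev_ren] at h1
    exact h1

end Vale.Agent.P174
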