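import Vale.Agent.P174.Defs

/-!
# P174: the wreath product construction
-/

namespace Vale.Agent.P174

open Monoid

universe u v w x

namespace WR

section Ext

/-- two homomorphisms on the words agree if they agree on coefficients and unknowns -/
lemma ev_ext {G : Type u} [Group G] {X : Type v} {H : Type w} [Group H]
    {f g : Coprod G (FreeGroup X) →* H} (h₁ : ∀ a, f (Coprod.inl a) = g (Coprod.inl a))
    (h₂ : ∀ j, f (Coprod.inr (FreeGroup.of j)) = g (Coprod.inr (FreeGroup.of j))) : f = g := by
  refine Coprod.hom_ext (MonoidHom.ext h₁) ?_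
  refine FreeGroup.ext_hom _ _ fun j => ?_
  exact h₂ j

@[simp]
lemma ev_inl {G : Type u} [Group G] {X : Type v} {H : Type w} [Group H] (i : G →* H) (h : X → H)
    (a : G) : ev i h (Coprod.inl a) = i a := by
  simp [ev]

@[simp]
lemma ev_of {G : Type u} [Group G] {X : Type v} {H : Type w} [Group H] (i : G →* H) (h : X → H)
    (j : X) : ev i h (Coprod.inr (FreeGroup.of j)) = h j := by
  simp [ev]

end Ext

/-- functoriality of the wreath product -/
def mapW {D E : Type*} (Q : Type*) [Group D] [Group E] [Group Q] (f : D →* E) :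
    RegularWreathProduct D Q →* RegularWreathProduct E Q where
  toFun a := ⟨fun x => f (a.left x), a.right⟩
  map_one' := by ext <;> simp
  map_mul' a b := by ext <;> simp

section Cocycle

variable {G Q : Type u} [Group G] [Group Q] (π : G →* Q)

/-- the set of translates of `x` -/
lemma exists_base : ∃ (b : Q → Q) (γ : Q → G), (∀ x, π (γ x) * x = b x) ∧
    ∀ g x, b (π g * x) = b x := by
  classical
  let S : Q → Set Q := fun x => {y | ∃ g : G, y = π g * x}
  have hS : ∀ g x, S (π g * x) = S x := by
    intro g x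
    ext y
    constructor
    · rintro ⟨k, rfl⟩
      exact ⟨k * g, by rw [map_mul, mul_assoc]⟩
    · rintro ⟨k, rfl⟩
      exact ⟨k * g⁻¹, by simp [mul_assoc]⟩
  have hne : ∀ x, (S x).Nonempty := fun x => ⟨x, 1, by simp⟩
  let c : Set Q → Q := fun T => if h : T.Nonempty then h.some else 1
  have hc : ∀ x, c (S x) ∈ S x := by
    intro x
    simp only [c, dif_pos (hne x)]
    exact (hne x).some_mem
  choose γ hγ using hc
  exact ⟨fun x => c (S x), γ, fun x => (hγ x).symm, fun g x => by simp only [hS]⟩

/-- the embedding of `G` in the wreath product of the kernel with `Q` -/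
lemma exists_emb : ∃ (A : G →* RegularWreathProduct π.ker Q) (γ : Q → G),
    (∀ g, (A g).right = π g) ∧
    ∀ g x, (((A g).left x : π.ker) : G) = γ x * g * (γ ((π g)⁻¹ * x))⁻¹ := by
  obtain ⟨b, γ, hγ, hb⟩ := exists_base π
  have hγ' : ∀ x, π (γ x) = b x * x⁻¹ := fun x => by rw [← hγ]; simp
  have hmem : ∀ g x, γ x * g * (γ ((π g)⁻¹ * x))⁻¹ ∈ π.ker := by
    intro g x
    rw [MonoidHom.mem_ker, map_mul, map_mul, map_inv, hγ', hγ', ← map_inv, hb]
    simp [mul_assoc]
  refine ⟨⟨⟨fun g => ⟨fun x => ⟨_, hmem g x⟩, π g⟩, ?_⟩, ?_⟩, γ, fun g => rfl, fun g x => rfl⟩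
  · refine RegularWreathProduct.ext ?_ ?_
    · funext x
      apply Subtype.ext
      simp
    · simp
  · intro g k
    refine RegularWreathProduct.ext ?_ ?_
    · funext x
      apply Subtype.ext
      simp [mul_assoc]
    · simp

end Cocycle

section Psi

variable {G Q : Type u} [Group G] [Group Q] (π : G →* Q) {X : Type u} (s : X → Q)
  (A : G →* RegularWreathProduct π.ker Q)

/-- the words of the derived system -/
def Psi : Coprod G (FreeGroup X) →*
    RegularWreathProduct (Coprod π.ker (FreeGroup (Q × X))) Q :=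
  ev ((mapW Q (Coprod.inl : π.ker →* Coprod π.ker (FreeGroup (Q × X)))).comp A)
    (fun j => ⟨fun x => Coprod.inr (FreeGroup.of (x, j)), s j⟩)

lemma Psi_right (hA : ∀ g, (A g).right = π g) (z : Coprod G (FreeGroup X)) :
    (Psi π s A z).right = ev π s z := by
  have h : RegularWreathProduct.rightHom.comp (Psi π s A) = ev π s := by
    refine ev_ext (fun a => ?_) (fun j => ?_)
    · simp [Psi, mapW, hA]
    · simp [Psi, mapW]
  exact DFunLike.congr_fun h z

lemma ev_eq {H : Type u} [Group H] (f : π.ker →* H) (h : Q × X → H) :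
    ev ((mapW Q f).comp A) (fun j => ⟨fun x => h (x, j), s j⟩ : X → RegularWreathProduct H Q) =
      (mapW Q (ev f h)).comp (Psi π s A) := by
  refine ev_ext (fun a => ?_) (fun j => ?_)
  · refine RegularWreathProduct.ext ?_ ?_
    · funext x
      simp [Psi, mapW]
    · simp [Psi, mapW]
  · refine RegularWreathProduct.ext ?_ ?_
    · funext x
      simp [Psi, mapW]
    · simp [Psi, mapW]

variable (p : ℕ)

/-- translation of exponent vectors -/
noncomputable def Tr (t : Q) : Multiplicative (Q × X →₀ ZMod p) →* Multiplicative (Q × X →₀ ZMod p) :=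
  AddMonoidHom.toMultiplicative
    (Finsupp.mapDomain.addMonoidHom (fun a : Q × X => (a.1 * t, a.2)))

/-- the translation automorphism of the wreath product -/
noncomputable def Sg (t : Q) : RegularWreathProduct (Multiplicative (Q × X →₀ ZMod p)) Q →*
    RegularWreathProduct (Multiplicative (Q × X →₀ ZMod p)) Q where
  toFun a := ⟨fun x => Tr p t⁻¹ (a.left (x * t)), a.right⟩
  map_one' := by ext <;> simp
  map_mul' a b := by
    refine RegularWreathProduct.ext ?_ ?_
    · funext x
      simp [mul_assoc]
    · simp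

lemma ex_inl {G' : Type u} [Group G'] {X' : Type v} (a : G') :
    ex p (Coprod.inl a : Coprod G' (FreeGroup X')) = 1 := by
  simp [ex]

lemma ex_of {G' : Type u} [Group G'] {X' : Type v} (j : X') :
    ex p (Coprod.inr (FreeGroup.of j) : Coprod G' (FreeGroup X')) =
      Multiplicative.ofAdd (Finsupp.single j 1) := by
  simp [ex]

lemma Sg_eq (t : Q) : (Sg p t).comp ((mapW Q (ex p)).comp (Psi π s A)) =
    (mapW Q (ex p)).comp (Psi π s A) := by
  refine ev_ext (fun a => ?_) (fun j => ?_)
  · refine RegularWreathProduct.ext ?_ ?_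
    · funext x
      simp [Psi, mapW, Sg, ex_inl]
    · simp [Psi, mapW, Sg]
  · refine RegularWreathProduct.ext ?_ ?_
    · funext x
      simp [Psi, mapW, Sg, ex_of, Tr]
    · simp [Psi, mapW, Sg]

lemma e_transl (z : Coprod G (FreeGroup X)) (t : Q) :
    Multiplicative.toAdd (ex p ((Psi π s A z).left t)) =
      (Multiplicative.toAdd (ex p ((Psi π s A z).left 1))).mapDomain
        (fun a : Q × X => (a.1 * t, a.2)) := by
  have h := DFunLike.congr_fun (Sg_eq π s A p t⁻¹) z
  have h2 := congrFun (congrArg RegularWreathProduct.left h) t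
  have h3 : Tr p t (ex p ((Psi π s A z).left (t * t⁻¹))) = ex p ((Psi π s A z).left t) := by
    simpa [Sg, mapW] using h2
  rw [mul_inv_cancel] at h3
  rw [← h3]
  rfl

/-- the constant embedding -/
noncomputable def Cst :
    Coprod G (FreeGroup X) →* RegularWreathProduct (Multiplicative (X →₀ ZMod p)) Q where
  toFun z := ⟨fun _ => ex p z, ev π s z⟩
  map_one' := by ext <;> simp
  map_mul' a b := by ext <;> simp

lemma Cst_eq (hA : ∀ g, (A g).right = π g) : (mapW Q (AddMonoidHom.toMultiplicative
      (Finsupp.mapDomain.addMonoidHom (M := ZMod p) (Prod.snd : Q × X → X)))).comp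
      ((mapW Q (ex p)).comp (Psi π s A)) = Cst π s p := by
  refine ev_ext (fun a => ?_) (fun j => ?_)
  · refine RegularWreathProduct.ext ?_ ?_
    · funext x
      simp [Psi, mapW, ex_inl, Cst]
    · simp [Psi, mapW, Cst, hA]
  · refine RegularWreathProduct.ext ?_ ?_
    · funext x
      simp [Psi, mapW, ex_of, Cst]
    · simp [Psi, mapW, Cst]

lemma e_aug (hA : ∀ g, (A g).right = π g) (z : Coprod G (FreeGroup X)) (t : Q) :
    (Multiplicative.toAdd (ex p ((Psi π s A z).left t))).mapDomain Prod.snd =
      Multiplicative.toAdd (ex p z) := by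
  have h := DFunLike.congr_fun (Cst_eq π s A p hA) z
  have h2 := congrFun (congrArg RegularWreathProduct.left h) t
  exact congrArg Multiplicative.toAdd h2

end Psi

end WR

open WR in
theorem wr (hlin : S_LIN.{u, u, u}) (hsep : S_SEP.{u}) : S_WR.{u} := by
  intro p _ G Q _ _ π ι X w s hs
  classical
  obtain ⟨A, γ, hA, hAγ⟩ := exists_emb π
  refine ⟨fun k => (Psi π s A (w k.1)).left k.2, ?_, ?_⟩
  · intro H _ f h hk
    refine ⟨(mapW Q f).comp A, fun j => ⟨fun x => h (x, j), s j⟩, ?_, ?_, ?_⟩
    · intro k
      rw [ev_eq]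
      refine RegularWreathProduct.ext ?_ ?_
      · funext x
        exact hk (k, x)
      · change (Psi π s A (w k)).right = 1
        rw [Psi_right π s A hA, hs]
    · intro g
      exact hA g
    · intro g hf hg
      have h1 := congrFun (congrArg RegularWreathProduct.left hg) 1
      have h2 : (A g).left 1 = 1 := hf _ h1
      have h3 := hAγ g 1
      have hg1 : π (g : G) = 1 := g.2
      rw [h2, hg1] at h3
      simp only [inv_one, mul_one, OneMemClass.coe_one] at h3
      apply Subtype.ext
      have h4 : (γ 1)⁻¹ * 1 * γ 1 = g := by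
        rw [h3]; simp [mul_assoc]
      simpa using h4.symm
  · intro hQ hι hw
    rw [Ind, linearIndependent_iff']
    intro S c hc
    obtain ⟨P, _, _, f, hP, hf⟩ := hsep p Q hQ (S.image Prod.snd)
    let D : ι → (P × X →₀ ZMod p) := fun i =>
      (Multiplicative.toAdd (ex p ((Psi π s A (w i)).left 1))).mapDomain
        (fun a : Q × X => (f a.1, a.2))
    have hD : LinearIndependent (ZMod p) (fun i => (D i).mapDomain Prod.snd) := by
      have he : (fun i => (D i).mapDomain Prod.snd) =
          fun i => Multiplicative.toAdd (ex p (w i)) := by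
        funext i
        simp only [D]
        rw [← Finsupp.mapDomain_comp]
        exact e_aug π s A p hA (w i) 1
      rw [he]
      exact hw
    have hL := hlin p P hP ι X D hD
    have hinj : Function.Injective (fun k : S => ((k.1.1, f k.1.2) : ι × P)) := by
      rintro ⟨k, hk⟩ ⟨k', hk'⟩ h
      simp only [Prod.mk.injEq] at h
      apply Subtype.ext
      refine Prod.ext h.1 ?_
      exact hf (Finset.mem_coe.mpr (Finset.mem_image_of_mem _ hk))
        (Finset.mem_coe.mpr (Finset.mem_image_of_mem _ hk')) h.2
    have hL2 := hL.comp _ hinj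
    have hpush : ∀ k : ι × Q, Finsupp.lmapDomain (ZMod p) (ZMod p)
        (fun a : Q × X => (f a.1, a.2)) (Multiplicative.toAdd
          (ex p ((Psi π s A (w k.1)).left k.2))) =
        (D k.1).mapDomain (fun aj : P × X => (aj.1 * f k.2, aj.2)) := by
      intro k
      rw [e_transl]
      simp only [D, Finsupp.lmapDomain_apply]
      rw [← Finsupp.mapDomain_comp, ← Finsupp.mapDomain_comp]
      congr 1
      funext a
      simp
    have hc2 := congrArg (Finsupp.lmapDomain (ZMod p) (ZMod p)
        (fun a : Q × X => (f a.1, a.2))) hc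
    rw [map_sum, map_zero] at hc2
    simp only [map_smul, hpush] at hc2
    rw [← Finset.sum_coe_sort] at hc2
    have hL3 := Fintype.linearIndependent_iff.mp hL2 (fun k => c k.1) hc2
    intro k hk
    exact hL3 ⟨k, hk⟩

end Vale.Agent.P174
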