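import Vale.Agent.P174.TDefs

/-!
# P174: walks
-/

namespace Vale.Agent.P174

open Monoid

universe u v w

namespace WALK

variable {H : Type u} [Group H] {V : Type v} {Λ : Type w}

lemma rd_mv (σ : Λ → V ≃ V) (l : V → Λ → H) (z : FreeGroup Λ) (v : V) :
    (rd σ l z).mv v = en σ z v := by
  have h : ∀ z : FreeGroup Λ, (rd σ l z).mv = (rd σ (fun _ _ => (1 : Multiplicative ℤ)) z).mv := by
    intro z
    induction z using FreeGroup.induction_on with
    | C1 => rw [map_one, map_one]; rfl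
    | of a => simp [rd]
    | inv_of a ih =>
      rw [map_inv, map_inv]
      refine Equiv.ext fun v => ?_
      rw [PW.inv_mv, PW.inv_mv, ih]
    | mul a b iha ihb =>
      rw [map_mul, map_mul]
      refine Equiv.ext fun v => ?_
      rw [PW.mul_mv, PW.mul_mv, iha, ihb]
  rw [h]
  rfl

@[simp] lemma en_one (σ : Λ → V ≃ V) (v : V) : en σ 1 v = v := by
  simp [en]

@[simp] lemma en_of (σ : Λ → V ≃ V) (a : Λ) (v : V) : en σ (FreeGroup.of a) v = σ a v := by
  simp [en, rd]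

lemma en_mul (σ : Λ → V ≃ V) (z z' : FreeGroup Λ) (v : V) :
    en σ (z * z') v = en σ z' (en σ z v) := by
  simp [en]

lemma en_inv_en (σ : Λ → V ≃ V) (z : FreeGroup Λ) (v : V) : en σ z⁻¹ (en σ z v) = v := by
  rw [← en_mul, mul_inv_cancel, en_one]

lemma en_en_inv (σ : Λ → V ≃ V) (z : FreeGroup Λ) (v : V) : en σ z (en σ z⁻¹ v) = v := by
  rw [← en_mul, inv_mul_cancel, en_one]

lemma en_inj (σ : Λ → V ≃ V) (z : FreeGroup Λ) {v v' : V} (h : en σ z v = en σ z v') : v = v' := by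
  rw [← en_inv_en σ z v, h, en_inv_en]

@[simp] lemma lb_one (σ : Λ → V ≃ V) (l : V → Λ → H) (v : V) : lb σ l 1 v = 1 := by
  simp [lb]

@[simp] lemma lb_of (σ : Λ → V ≃ V) (l : V → Λ → H) (a : Λ) (v : V) :
    lb σ l (FreeGroup.of a) v = l v a := by
  simp [lb, rd]

lemma lb_mul (σ : Λ → V ≃ V) (l : V → Λ → H) (z z' : FreeGroup Λ) (v : V) :
    lb σ l (z * z') v = lb σ l z v * lb σ l z' (en σ z v) := by
  unfold lb
  rw [map_mul, PW.mul_val, rd_mv]

lemma lb_inv_en (σ : Λ → V ≃ V) (l : V → Λ → H) (z : FreeGroup Λ) (v : V) :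
    lb σ l z⁻¹ (en σ z v) = (lb σ l z v)⁻¹ := by
  have h := lb_mul σ l z z⁻¹ v
  rw [mul_inv_cancel, lb_one] at h
  exact (inv_eq_of_mul_eq_one_right h.symm).symm

lemma lb_inv (σ : Λ → V ≃ V) (l : V → Λ → H) (z : FreeGroup Λ) (v : V) :
    lb σ l z⁻¹ v = (lb σ l z (en σ z⁻¹ v))⁻¹ := by
  have h := lb_inv_en σ l z (en σ z⁻¹ v)
  rwa [en_en_inv] at h

/-- functoriality -/
lemma push {H' : Type*} [Group H'] {V' : Type*} (σ : Λ → V ≃ V) (σ' : Λ → V' ≃ V')
    (l : V → Λ → H) (l' : V' → Λ → H') (q : V' → V) (f : H' →* H)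
    (hq : ∀ a x, q (σ' a x) = σ a (q x)) (hf : ∀ a x, f (l' x a) = l (q x) a)
    (z : FreeGroup Λ) : ∀ x, q (en σ' z x) = en σ z (q x) ∧
      f (lb σ' l' z x) = lb σ l z (q x) := by
  induction z using FreeGroup.induction_on with
  | C1 => intro x; simp
  | of a => intro x; simp [hq, hf]
  | inv_of a ih =>
    intro x
    have h1 := ih (en σ' (FreeGroup.of a)⁻¹ x)
    rw [en_en_inv] at h1
    have h2 : q (en σ' (FreeGroup.of a)⁻¹ x) = en σ (FreeGroup.of a)⁻¹ (q x) := by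
      rw [h1.1, en_inv_en]
    refine ⟨h2, ?_⟩
    rw [lb_inv, map_inv, h1.2, h2, ← lb_inv]
  | mul a b iha ihb =>
    intro x
    rw [en_mul, en_mul, lb_mul, lb_mul, map_mul, (ihb _).1, (ihb _).2, (iha x).1, (iha x).2]
    exact ⟨rfl, rfl⟩

end WALK

end Vale.Agent.P174
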